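import Vale.Agent.P167.QX.Thick
import Vale.Agent.P167.H680.T.RowQ
import Vale.Agent.P167.H506.Q.EF

/-!
# P167, general `q`, Q-NORM: special points of rows and their factors

`lrs I A A' B ω`: outer strands of the cuts of `I` from `A` to `A'` inside `B`. `SP`: special points
(ends of rows, junctions, base points) with the factors of the strands over them relative to the
natural ones. `Zp`: the normalisation of a row.
-/

namespace Vale.Agent.P167.H945.Q

open Finset MeasureTheory
open Vale.Agent.P167.BR
open Vale.Agent.P167.XDL (bS mem_bS)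
open Vale.Agent.P167.FK
open Vale.Agent.P167.H199 (cang strand ret Returns)
open Vale.Agent.P167.H825.Q (Row)
open Vale.Agent.P167.H506.Q (fz)

/-- The outer strands of the cuts of `I` which start at an edge of `A`, end at an edge of `A'` and
visit only squares of `B`. -/
noncomputable def lrs (I : Finset (ℤ × ℤ)) (A A' : Finset Ed) (B : Finset (ℤ × ℤ)) (ω : Cfg) :
    Finset Ed := by
  classical
  exact A.filter fun e => e ∈ bS I ∧ hdv e ∉ I ∧ Returns (nx ω) (bS I) e ∧
    (nx ω)^[ret (nx ω) (bS I) e] e ∈ A' ∧ ∀ x ∈ strand (nx ω) (bS I) e, hdv x ∈ B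

/-- A special point: the centre, the correction `e` of the boxes, the sides before and after it, the
relative factors of the strands from `A` to `A'` and from `A'` to `A`. -/
@[ext] structure SP where
  c : ℤ × ℤ
  e : ℕ × ℕ
  A : Finset Ed
  A' : Finset Ed
  w : ℝ
  w' : ℝ

/-- The box around a special point: `Bq p.c R` without its left and lower line if the entries of
`p.e` are `1`. For the tips (`p.e = (1, 1)`) and the junctions (`1` transversally to the row) these
boxes are invariant under the symmetries of the rows (`H680/T/ZInv.lean`). -/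
noncomputable def SP.bx (p : SP) (R : ℤ) : Finset (ℤ × ℤ) :=
  Ico (p.c.1 - R + p.e.1) (p.c.1 + R) ×ˢ Ico (p.c.2 - R + p.e.2) (p.c.2 + R)

/-- **The factor of a special point**: product over the strands over the point inside the box of
radius `R`. -/
noncomputable def SP.T (I : Finset (ℤ × ℤ)) (p : SP) (R : ℤ) (ω : Cfg) : ℝ :=
  p.w ^ (lrs I p.A p.A' (p.bx R) ω).card * p.w' ^ (lrs I p.A' p.A (p.bx R) ω).card

/-- The natural weight. -/
noncomputable def natw (θ t τ τ' : ℝ) : ℝ :=
  if τ = τ' ∧ 0 < τ * t then Real.sin (2 * θ) else Real.sin θ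

/-- The relative factor of a strand with turning `t` from a side with raw phase `Φ` and colour `τ` to
a side with `Φ - d` and colour `τ'`. -/
noncomputable def relw (θ t d τ τ' : ℝ) : ℝ :=
  |Real.cos (θ / 4 * t + d + (τ + τ') * ((3 * θ - Real.pi) / 4))| / natw θ t τ τ'

/-! ### rows -/

/-- The medial edge across the side `b` (`true`: up or right, `false`: down or left) of the square
`k` of the row. -/
def face (r : Row) (b : Bool) (k : ℕ) : Ed :=
  if r.o then Sum.inr (if b then r.sq k else ((r.sq k).1, (r.sq k).2 - 1))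
  else Sum.inl (if b then r.sq k else ((r.sq k).1 - 1, (r.sq k).2))

/-- The medial edges across the sides `b` of the squares `lo ≤ k < hi`. -/
def faces (r : Row) (b : Bool) (lo hi : ℕ) : Finset Ed := (Ico lo hi).image (face r b)

/-- The right (upper) end. Counterclockwise from `A` to `A'`. -/
noncomputable def tipR (θ : ℝ) (r : Row) : SP :=
  ⟨r.sq (r.L - 1), (1, 1), faces r (!r.o) 0 r.L, faces r r.o 0 r.L,
    relw θ 4 0 (r.τ (r.sq (r.L - 1))) (r.τ (r.sq (r.L - 1))),
    relw θ (-4) 0 (r.τ (r.sq (r.L - 1))) (r.τ (r.sq (r.L - 1)))⟩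

/-- The left (lower) end. Counterclockwise from `A` to `A'`. -/
noncomputable def tipL (θ : ℝ) (r : Row) : SP :=
  ⟨r.sq 0, (1, 1), faces r r.o 0 r.L, faces r (!r.o) 0 r.L,
    relw θ 4 0 (r.τ (r.sq 0)) (r.τ (r.sq 0)), relw θ (-4) 0 (r.τ (r.sq 0)) (r.τ (r.sq 0))⟩

/-- The turning of the strands from the squares `< k0` to the squares `≥ k0` over the junction, on
the face `b`. -/
noncomputable def tj (r : Row) (b : Bool) : ℝ := if r.o = b then -2 else 2

/-- The junction (or base point), face `b`. -/
noncomputable def jn (θ : ℝ) (r : Row) (b : Bool) : SP :=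
  ⟨r.sq r.k0, if r.o then (0, 1) else (1, 0), faces r b 0 r.k0, faces r b r.k0 r.L,
    relw θ (tj r b) (-r.j) r.s (r.s * r.η), relw θ (-tj r b) r.j r.s (r.s * r.η)⟩

/-- The row has no junction. -/
def Plain (r : Row) : Prop := r.j = 0 ∧ r.η = 1

open Classical in
/-- The radius of the boxes around the special points. -/
noncomputable def rad (r : Row) : ℤ :=
  if Plain r then ((r.L / 8 : ℕ) : ℤ) else ((min r.k0 (r.L - r.k0) / 8 : ℕ) : ℤ)

/-- The product of the factors of the special points, radius `R`; the other cuts `I` of the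
configuration. -/
noncomputable def TT (θ : ℝ) (I : Finset (ℤ × ℤ)) (r : Row) (R : ℤ) (ω : Cfg) : ℝ := by
  classical
  exact (tipL θ r).T I R ω * (tipR θ r).T I R ω *
    (if Plain r then 1 else (jn θ r true).T I R ω * (jn θ r false).T I R ω)

/-- **The normalisation of a row** (680's `Zp`; the label of the wall is `H680.T.Zrow θ (Zp θ P)`). -/
noncomputable def Zp (θ : ℝ) (P : Measure Cfg) (_n : ℕ) (r : Row) : ℝ :=
  (2 * Real.sin θ) ^ (r.L + 1) * ∫ ω, fz r.I r.fr ω * TT θ r.I r (rad r) ω ∂P

end Vale.Agent.P167.H945.Q
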