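import Vale.Agent.P167.H945.Q.HDefs

/-!
# P167, general `q`, Q-NORM: locality and positivity of the factors of the special points
-/

namespace Vale.Agent.P167.H945.Q

open Finset MeasureTheory
open Vale.Agent.P167.BR
open Vale.Agent.P167.XDL (bS mem_bS)
open Vale.Agent.P167.FK
open Vale.Agent.P167.FKA (Loc Ind)
open Vale.Agent.P167.H199 (cang strand ret Returns mem_strand ret_min ret_le)
open Vale.Agent.P167.H825.Q (Row)
open Vale.Agent.P167.H685 (nx_loc)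
open Vale.Agent.P167.H680.T (sq_mem mem_bS_sq trans_mem ax)

variable {I J : Finset (ℤ × ℤ)} {A A' : Finset Ed} {B : Finset (ℤ × ℤ)} {ω ω' : Cfg} {θ : ℝ}

theorem mem_lrs {e : Ed} : e ∈ lrs I A A' B ω ↔ e ∈ A ∧ e ∈ bS I ∧ hdv e ∉ I ∧
    Returns (nx ω) (bS I) e ∧ (nx ω)^[ret (nx ω) (bS I) e] e ∈ A' ∧
    ∀ x ∈ strand (nx ω) (bS I) e, hdv x ∈ B := by
  classical
  unfold lrs
  rw [mem_filter]

/-! ### locality -/

/-- While the heads are in `B`, the orbits agree. -/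
theorem iter_agree (h : ∀ v ∈ B, ω v = ω' v) {e : Ed} {n : ℕ}
    (hB : ∀ k < n, hdv ((nx ω)^[k] e) ∈ B) : ∀ k ≤ n, (nx ω)^[k] e = (nx ω')^[k] e := by
  intro k hk
  induction k with
  | zero => rfl
  | succ k ih =>
    rw [Function.iterate_succ_apply', Function.iterate_succ_apply', ← ih (by omega),
      nx_loc (h _ (hB k (by omega)))]

theorem lrs_sub (h : ∀ v ∈ B, ω v = ω' v) : lrs I A A' B ω ⊆ lrs I A A' B ω' := by
  intro e he
  rw [mem_lrs] at he ⊢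
  obtain ⟨h1, h2, h3, h4, h5, h6⟩ := he
  have hB : ∀ k < ret (nx ω) (bS I) e, hdv ((nx ω)^[k] e) ∈ B := fun k hk =>
    h6 _ (mem_strand.2 ⟨k, hk, rfl⟩)
  have hag := iter_agree h hB
  obtain ⟨h7, h8⟩ := h4.spec
  have hret : ret (nx ω') (bS I) e = ret (nx ω) (bS I) e := by
    apply le_antisymm
    · exact ret_le h7 (by rw [← hag _ le_rfl]; exact h8)
    · by_contra hlt
      push Not at hlt
      have h9 : Returns (nx ω') (bS I) e := ⟨_, h7, by rw [← hag _ le_rfl]; exact h8⟩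
      obtain ⟨h10, h11⟩ := h9.spec
      rw [← hag _ hlt.le] at h11
      exact ret_min h10 hlt h11
  refine ⟨h1, h2, h3, ⟨_, h7, by rw [← hag _ le_rfl]; exact h8⟩, ?_, ?_⟩
  · rw [hret, ← hag _ le_rfl]
    exact h5
  · intro x hx
    obtain ⟨k, hk, rfl⟩ := mem_strand.1 hx
    rw [hret] at hk
    rw [← hag k hk.le]
    exact hB k hk

theorem lrs_congr (h : ∀ v ∈ B, ω v = ω' v) : lrs I A A' B ω = lrs I A A' B ω' :=
  (lrs_sub h).antisymm (lrs_sub fun v hv => (h v hv).symm)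

/-- The boxes of the special points. -/
theorem SP.bx_sub (p : SP) (R : ℤ) : p.bx R ⊆ Bq p.c R := by
  intro v hv
  unfold SP.bx at hv
  unfold Bq
  rw [mem_product, mem_Ico, mem_Ico] at hv ⊢
  omega

theorem SP.sub_bx {p : SP} (h1 : p.e.1 ≤ 1) (h2 : p.e.2 ≤ 1) (R : ℤ) : Bq p.c (R - 1) ⊆ p.bx R := by
  intro v hv
  unfold Bq at hv
  unfold SP.bx
  rw [mem_product, mem_Ico, mem_Ico] at hv ⊢
  omega

theorem SP.bx_mono (p : SP) {R R' : ℤ} (h : R ≤ R') : p.bx R ⊆ p.bx R' := by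
  intro v hv
  unfold SP.bx at hv ⊢
  rw [mem_product, mem_Ico, mem_Ico] at hv ⊢
  omega

theorem SP.T_loc' (I : Finset (ℤ × ℤ)) (p : SP) (R : ℤ) : Loc (p.bx R) (p.T I R) := by
  intro ω ω' h
  unfold SP.T
  rw [lrs_congr h, lrs_congr h]

theorem SP.T_loc (I : Finset (ℤ × ℤ)) (p : SP) (R : ℤ) : Loc (Bq p.c R) (p.T I R) :=
  fun _ _ h => p.T_loc' I R _ _ fun v hv => h v (p.bx_sub R hv)

/-! ### other rows -/

theorem head_out {e : Ed} (h1 : hdv e ∉ I) {k : ℕ} (hk : ∀ j, 1 ≤ j → j ≤ k →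
    (nx ω)^[j] e ∉ bS I) : hdv ((nx ω)^[k] e) ∉ I := by
  induction k with
  | zero => exact h1
  | succ k ih =>
    intro h
    apply hk (k + 1) (by omega) le_rfl
    rw [mem_bS]
    refine Or.inl ⟨h, ?_⟩
    rw [Function.iterate_succ_apply', tlv_nx]
    exact ih fun j j1 j2 => hk j j1 (by omega)

/-- The other rows are not seen: the strands in `B` from `A` to `A'`. -/
theorem lrs_sub_row (hJ : J ⊆ I) (hA' : ∀ e ∈ A', e ∈ bS J)
    (hAJ : ∀ e ∈ A, tlv e ∈ I → tlv e ∈ J) :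
    lrs I A A' B ω ⊆ lrs J A A' B ω := by
  intro e he
  rw [mem_lrs] at he ⊢
  obtain ⟨h1, h2, h3, h4, h5, h6⟩ := he
  obtain ⟨h7, h8⟩ := h4.spec
  obtain ⟨m, hm⟩ : ∃ m, ret (nx ω) (bS I) e = m + 1 := ⟨_, (Nat.sub_add_cancel h7).symm⟩
  have hout : ∀ k < ret (nx ω) (bS I) e, hdv ((nx ω)^[k] e) ∉ I := fun k hk =>
    head_out h3 fun j j1 j2 => ret_min j1 (by omega)
  -- the last edge
  have h9 : tlv ((nx ω)^[ret (nx ω) (bS I) e] e) ∉ I := by
    rw [hm, Function.iterate_succ_apply', tlv_nx]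
    exact hout m (by omega)
  have h10 : (nx ω)^[ret (nx ω) (bS I) e] e ∈ bS J := hA' _ h5
  have hret : ret (nx ω) (bS J) e = ret (nx ω) (bS I) e := by
    apply le_antisymm
    · exact ret_le h7 h10
    · by_contra hlt
      push Not at hlt
      have h11 : Returns (nx ω) (bS J) e := ⟨_, h7, h10⟩
      obtain ⟨h12, h13⟩ := h11.spec
      rw [mem_bS] at h13
      rcases h13 with h | h
      · exact hout _ hlt (hJ h.1)
      · obtain ⟨m', hm'⟩ : ∃ m', ret (nx ω) (bS J) e = m' + 1 :=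
          ⟨_, (Nat.sub_add_cancel h12).symm⟩
        have h14 := h.2
        rw [hm', Function.iterate_succ_apply', tlv_nx] at h14
        exact hout m' (by omega) (hJ h14)
  have hst : strand (nx ω) (bS J) e = strand (nx ω) (bS I) e := by
    unfold strand
    rw [hret]
  refine ⟨h1, ?_, fun h => h3 (hJ h), ⟨_, h7, h10⟩, by rw [hret]; exact h5, by rw [hst]; exact h6⟩
  rw [mem_bS] at h2 ⊢
  rcases h2 with h | h
  · exact absurd h.1 h3
  · exact Or.inr ⟨fun h' => h3 (hJ h'), hAJ e h1 h.2⟩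

theorem lrs_row_sub (hJ : J ⊆ I) (hB : ∀ v ∈ B, v ∈ I → v ∈ J) :
    lrs J A A' B ω ⊆ lrs I A A' B ω := by
  intro e he
  rw [mem_lrs] at he ⊢
  obtain ⟨h1, h2, h3, h4, h5, h6⟩ := he
  obtain ⟨h7, h8⟩ := h4.spec
  obtain ⟨m, hm⟩ : ∃ m, ret (nx ω) (bS J) e = m + 1 := ⟨_, (Nat.sub_add_cancel h7).symm⟩
  have hB' : ∀ k < ret (nx ω) (bS J) e, hdv ((nx ω)^[k] e) ∈ B := fun k hk =>
    h6 _ (mem_strand.2 ⟨k, hk, rfl⟩)
  have hout : ∀ k < ret (nx ω) (bS J) e, hdv ((nx ω)^[k] e) ∉ I := fun k hk h =>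
    head_out (I := J) h3 (fun j j1 j2 => ret_min j1 (by omega)) (hB _ (hB' k hk) h)
  have h9 : tlv ((nx ω)^[ret (nx ω) (bS J) e] e) ∉ I := by
    rw [hm, Function.iterate_succ_apply', tlv_nx]
    exact hout m (by omega)
  have h10 : (nx ω)^[ret (nx ω) (bS J) e] e ∈ bS I := by
    rw [mem_bS] at h8 ⊢
    rcases h8 with h | h
    · exact Or.inl ⟨hJ h.1, h9⟩
    · exact absurd (hJ h.2) h9
  have hret : ret (nx ω) (bS I) e = ret (nx ω) (bS J) e := by
    apply le_antisymm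
    · exact ret_le h7 h10
    · by_contra hlt
      push Not at hlt
      have h11 : Returns (nx ω) (bS I) e := ⟨_, h7, h10⟩
      obtain ⟨h12, h13⟩ := h11.spec
      rw [mem_bS] at h13
      rcases h13 with h | h
      · exact hout _ hlt h.1
      · obtain ⟨m', hm'⟩ : ∃ m', ret (nx ω) (bS I) e = m' + 1 :=
          ⟨_, (Nat.sub_add_cancel h12).symm⟩
        have h14 := h.2
        rw [hm', Function.iterate_succ_apply', tlv_nx] at h14
        exact hout m' (by omega) h14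
  have hst : strand (nx ω) (bS I) e = strand (nx ω) (bS J) e := by
    unfold strand
    rw [hret]
  have h3' : hdv e ∉ I := hout 0 (by omega)
  refine ⟨h1, ?_, h3', ⟨_, h7, h10⟩, by rw [hret]; exact h5, by rw [hst]; exact h6⟩
  rw [mem_bS] at h2 ⊢
  rcases h2 with h | h
  · exact absurd (hJ h.1) h3'
  · exact Or.inr ⟨h3', hJ h.2⟩

theorem lrs_row (hJ : J ⊆ I) (hB : ∀ v ∈ B, v ∈ I → v ∈ J) (hA' : ∀ e ∈ A', e ∈ bS J)
    (hAJ : ∀ e ∈ A, tlv e ∈ I → tlv e ∈ J) : lrs I A A' B ω = lrs J A A' B ω :=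
  (lrs_sub_row hJ hA' hAJ).antisymm (lrs_row_sub hJ hB)

/-! ### the faces of a row -/

theorem face_mem {r : Row} {b : Bool} {k : ℕ} (hk : k < r.L) : face r b k ∈ bS r.I := by
  rw [mem_bS_sq]
  have h0 : r.sq k ∈ r.I := sq_mem.2 hk
  have h1 : H680.T.sq (face r b k) (!b) = r.sq k := by
    unfold face
    cases ho : r.o <;> cases b <;> simp [H680.T.sq]
  have h2 : ax r.o (face r b k) = false := by
    unfold face
    cases ho : r.o <;> rfl
  have h3 : H680.T.sq (face r b k) b ∉ r.I := by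
    intro h
    cases b
    · exact trans_mem h2 (by rw [Bool.not_false] at h1; rw [h1]; exact h0) h
    · exact trans_mem h2 h (by rw [Bool.not_true] at h1; rw [h1]; exact h0)
  cases b
  · left
    rw [Bool.not_false] at h1
    exact ⟨by rw [h1]; exact h0, h3⟩
  · right
    rw [Bool.not_true] at h1
    exact ⟨h3, by rw [h1]; exact h0⟩

theorem faces_sub {r : Row} {b : Bool} {lo hi : ℕ} (h : hi ≤ r.L) :
    ∀ e ∈ faces r b lo hi, e ∈ bS r.I := by
  intro e he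
  obtain ⟨k, hk, rfl⟩ := mem_image.1 he
  rw [mem_Ico] at hk
  exact face_mem (by omega)

/-- Sides of a row which belong only to this row. -/
theorem tl_face {r : Row} {b : Bool} {lo hi : ℕ} (h : hi ≤ r.L)
    (hs : ∀ e : Ed, (hdv e ∈ r.I → tlv e ∈ I → tlv e ∈ r.I)) :
    ∀ e ∈ faces r b lo hi, tlv e ∈ I → tlv e ∈ r.I := by
  intro e he h1
  have h2 := faces_sub h e he
  rw [mem_bS] at h2
  rcases h2 with h2 | h2
  · exact hs e h2.1 h1
  · exact h2.2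

/-! ### positivity -/

theorem natw_pos (h0 : 0 < θ) (h1 : θ ≤ Real.pi / 3) (t τ τ' : ℝ) : 0 < natw θ t τ τ' := by
  have hp := Real.pi_pos
  unfold natw
  split_ifs
  · exact Real.sin_pos_of_pos_of_lt_pi (by linarith) (by linarith)
  · exact Real.sin_pos_of_pos_of_lt_pi h0 (by linarith)

theorem relw_nonneg (h0 : 0 < θ) (h1 : θ ≤ Real.pi / 3) (t d τ τ' : ℝ) :
    0 ≤ relw θ t d τ τ' := div_nonneg (abs_nonneg _) (natw_pos h0 h1 _ _ _).le

theorem SP.T_nonneg {p : SP} (h : 0 ≤ p.w) (h' : 0 ≤ p.w') (I : Finset (ℤ × ℤ)) (R : ℤ)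
    (ω : Cfg) : 0 ≤ p.T I R ω := mul_nonneg (pow_nonneg h _) (pow_nonneg h' _)

theorem Tc_nonneg (h0 : 0 < θ) (h1 : θ ≤ Real.pi / 3) (I : Finset (ℤ × ℤ)) (r : Row) (i : Fin 3)
    (R : ℤ) (ω : Cfg) : 0 ≤ Tc θ I r i R ω := by
  have key : ∀ {p : SP}, 0 ≤ p.w → 0 ≤ p.w' → 0 ≤ p.T I R ω := fun a b => SP.T_nonneg a b I R ω
  unfold Tc
  split_ifs
  · exact key (relw_nonneg h0 h1 _ _ _ _) (relw_nonneg h0 h1 _ _ _ _)
  · exact key (relw_nonneg h0 h1 _ _ _ _) (relw_nonneg h0 h1 _ _ _ _)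
  · exact zero_le_one
  · exact mul_nonneg (key (relw_nonneg h0 h1 _ _ _ _) (relw_nonneg h0 h1 _ _ _ _))
      (key (relw_nonneg h0 h1 _ _ _ _) (relw_nonneg h0 h1 _ _ _ _))

theorem TT_nonneg (h0 : 0 < θ) (h1 : θ ≤ Real.pi / 3) (I : Finset (ℤ × ℤ)) (r : Row)
    (R : ℤ) (ω : Cfg) : 0 ≤ TT θ I r R ω := by
  rw [TT_eq]
  exact prod_nonneg fun i _ => Tc_nonneg h0 h1 I r i R ω

theorem Tc_loc (I : Finset (ℤ × ℤ)) (r : Row) (i : Fin 3) (R : ℤ) :
    Loc (Bq (ctr r i) R) (Tc θ I r i R) := by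
  intro ω ω' h
  unfold Tc
  fin_cases i
  · simp only [Fin.zero_eta, if_true]
    exact (tipL θ r).T_loc I R _ _ h
  · simp only [Fin.mk_one, one_ne_zero, if_false, if_true]
    exact (tipR θ r).T_loc I R _ _ h
  · have e1 : ((⟨2, by omega⟩ : Fin 3) = 0) = False := by simp
    have e2 : ((⟨2, by omega⟩ : Fin 3) = 1) = False := by simp
    simp only [e1, e2, if_false]
    split_ifs
    · rfl
    · rw [(jn θ r true).T_loc I R _ _ h, (jn θ r false).T_loc I R _ _ h]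

/-- The factors do not see the other rows. -/
theorem Tc_row {r : Row} {i : Fin 3} {R : ℤ} (hJ : r.I ⊆ I)
    (hB : ∀ v ∈ Bq (ctr r i) R, v ∈ I → v ∈ r.I)
    (hs : ∀ e : Ed, hdv e ∈ r.I → tlv e ∈ I → tlv e ∈ r.I) (hk : ¬ Plain r → r.k0 ≤ r.L) :
    Tc θ I r i R ω = Tc θ r.I r i R ω := by
  have key : ∀ (B : Finset (ℤ × ℤ)), B ⊆ Bq (ctr r i) R →
      ∀ (b b' : Bool) (lo hi lo' hi' : ℕ), hi ≤ r.L → hi' ≤ r.L →
      lrs I (faces r b lo hi) (faces r b' lo' hi') B ω =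
        lrs r.I (faces r b lo hi) (faces r b' lo' hi') B ω :=
    fun B hBs b b' lo hi lo' hi' h h' => lrs_row hJ (fun v hv => hB v (hBs hv)) (faces_sub h')
      (tl_face h hs)
  unfold Tc
  by_cases h0 : i = 0
  · subst h0
    rw [if_pos rfl, if_pos rfl]
    unfold SP.T
    have hs := (tipL θ r).bx_sub R
    show _ ^ (lrs I (faces r r.o 0 r.L) (faces r (!r.o) 0 r.L) ((tipL θ r).bx R) ω).card *
      _ ^ (lrs I (faces r (!r.o) 0 r.L) (faces r r.o 0 r.L) ((tipL θ r).bx R) ω).card =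
      _ ^ (lrs r.I (faces r r.o 0 r.L) (faces r (!r.o) 0 r.L) ((tipL θ r).bx R) ω).card *
      _ ^ (lrs r.I (faces r (!r.o) 0 r.L) (faces r r.o 0 r.L) ((tipL θ r).bx R) ω).card
    rw [key _ hs _ _ _ _ _ _ le_rfl le_rfl, key _ hs _ _ _ _ _ _ le_rfl le_rfl]
  rw [if_neg h0, if_neg h0]
  by_cases h1 : i = 1
  · subst h1
    rw [if_pos rfl, if_pos rfl]
    unfold SP.T
    have hs := (tipR θ r).bx_sub R
    show _ ^ (lrs I (faces r (!r.o) 0 r.L) (faces r r.o 0 r.L) ((tipR θ r).bx R) ω).card *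
      _ ^ (lrs I (faces r r.o 0 r.L) (faces r (!r.o) 0 r.L) ((tipR θ r).bx R) ω).card =
      _ ^ (lrs r.I (faces r (!r.o) 0 r.L) (faces r r.o 0 r.L) ((tipR θ r).bx R) ω).card *
      _ ^ (lrs r.I (faces r r.o 0 r.L) (faces r (!r.o) 0 r.L) ((tipR θ r).bx R) ω).card
    rw [key _ hs _ _ _ _ _ _ le_rfl le_rfl, key _ hs _ _ _ _ _ _ le_rfl le_rfl]
  rw [if_neg h1, if_neg h1]
  have h2 : i = 2 := by omega
  subst h2
  by_cases hp : Plain r
  · rw [if_pos hp, if_pos hp]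
  rw [if_neg hp, if_neg hp]
  have h3 : ∀ b, (jn θ r b).T I R ω = (jn θ r b).T r.I R ω := by
    intro b
    unfold SP.T
    have hs := (jn θ r b).bx_sub R
    show _ ^ (lrs I (faces r b 0 r.k0) (faces r b r.k0 r.L) ((jn θ r b).bx R) ω).card *
      _ ^ (lrs I (faces r b r.k0 r.L) (faces r b 0 r.k0) ((jn θ r b).bx R) ω).card =
      _ ^ (lrs r.I (faces r b 0 r.k0) (faces r b r.k0 r.L) ((jn θ r b).bx R) ω).card *
      _ ^ (lrs r.I (faces r b r.k0 r.L) (faces r b 0 r.k0) ((jn θ r b).bx R) ω).card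
    rw [key _ hs _ _ _ _ _ _ (hk hp) le_rfl, key _ hs _ _ _ _ _ _ le_rfl (hk hp)]
  rw [h3, h3]

end Vale.Agent.P167.H945.Q
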