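import Vale.Agent.P167.H945.Q.HMaj
import Vale.Agent.P167.H199.QRatW

/-!
# P167, general `q`, Q-NORM: the upper bound `HOSR`

`hosr`: `L1 θ`, `P1a θ`, `P1b θ` imply `H680.T.HOSR θ P (Zp θ P)`.
-/

namespace Vale.Agent.P167.H945.Q

open Finset MeasureTheory Filter
open Vale.Agent.P167.BR
open Vale.Agent.P167.FK
open Vale.Agent.P167.FKA (Loc Ind Loc.ind Ex_mono Ex_congr)
open Vale.Agent.P167.H519 (IsLim)
open Vale.Agent.P167.H825 (dv epos)
open Vale.Agent.P167.H825.Q (Row)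
open Vale.Agent.P167.H680.T (rowC uI mem_uI HOSR sq_mem)
open Vale.Agent.P167.QX (RT QL)
open Vale.Agent.P167.H199 (Rsc nbh mem_nbh walls_lim Cw Cw_mono Cw_pos subset_nbh)
open Vale.Agent.P167.H506.Q (EF fz LF EF_tr EF_le EF_lin EF_nonneg fz_pos fz_nonneg fz_le_one
  fz_one fz_zero fz_loc loc_bdd fz_int)
open Vale.Agent.P167.H562.QM (MajA)
open Vale.Agent.P167.H562.MAJ (Sm)

variable {θ : ℝ}

theorem rsc_of {Q : ℝ} (h : RSW Q) : ∃ (Λ : ℤ) (c : ℝ), 2 ≤ Λ ∧ 0 < c ∧ c ≤ 1 ∧ Rsc Q Λ c := by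
  obtain ⟨Λ, c, h1, h2, h3⟩ := h
  refine ⟨Λ, min c 1, h1, lt_min h2 one_pos, min_le_right _ _, h1, lt_min h2 one_pos,
    min_le_right _ _, fun x r hr => ((h3 x r hr).1).trans ?_⟩
  linarith [min_le_left c 1]

/-! ### one row: comparison of the radii -/

/-- One centre. -/
theorem row_step (h0 : 0 < θ) (h1 : θ ≤ Real.pi / 3) {P : Measure Cfg}
    (hP : IsLim (2 * Real.cos θ) P) (hg : ∀ᵐ ω ∂P, Good ω) {r : Row} {m : ℕ} (hr : r.Ok θ 1 m)
    (hm : 1 ≤ m) {k : Fin 3} {ρ ρ' : ℤ} {C : ℝ} (hC : 1 ≤ C)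
    (h : Sp r k → ∀ η : Cfg, Good η → (∀ v ∈ r.I, η v = r.fr v) →
      Ex (2 * Real.cos θ) (Bq (ctr r k) (4 * ρ') \ r.I) η (Tc θ r.I r k ρ) ≤
        C * Ex (2 * Real.cos θ) (Bq (ctr r k) (4 * ρ') \ r.I) η (Tc θ r.I r k ρ'))
    (hρ' : 1 ≤ ρ') (hm' : 8 * ρ' ≤ m) (s : Fin 3 → ℤ) (hs : ∀ l, s l ≤ ρ') :
    EF P r.I r.fr (fun ω => (∏ l ∈ univ.erase k, Tc θ r.I r l (s l) ω) * Tc θ r.I r k ρ ω) ≤
      C * EF P r.I r.fr
        (fun ω => (∏ l ∈ univ.erase k, Tc θ r.I r l (s l) ω) * Tc θ r.I r k ρ' ω) := by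
  by_cases hk : Sp r k
  · refine EF_lift (cos_ge h0 h1) hP hg (D1 := Bq (ctr r k) (4 * ρ') \ r.I)
      Finset.sdiff_disjoint (fun ω => prod_nonneg fun _ _ => Tc_nonneg h0 h1 _ _ _ _ _) ?_
      (LF.prod _ fun _ _ => ⟨_, Tc_loc _ _ _ _⟩) ⟨_, Tc_loc _ _ _ _⟩ ⟨_, Tc_loc _ _ _ _⟩
      fun ζ hζ hk' => h hk ζ hζ hk'
    refine ind_prod _ fun l hl => ?_
    by_cases hl' : Sp r l
    · refine Loc.ind (Finset.disjoint_left.2 fun v hv hv' => ?_) (Tc_loc r.I r l (s l))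
      have h2 := ctr_sep1 hr (by rw [one_mul]; exact_mod_cast hm) hl' hk (ne_of_mem_erase hl)
      have h3 := nm_of_Bq hv
      have h4 := nm_of_Bq (Finset.mem_sdiff.1 hv').1
      have h5 := nm_sub_le (ctr r l) v (ctr r k)
      rw [nm_comm (ctr r l) v] at h5
      have h6 : nm (ctr r l - ctr r k) ≤ ρ' + 4 * ρ' :=
        h5.trans (add_le_add (h3.trans (hs l)) h4)
      have h7 : (nm (ctr r l - ctr r k) : ℝ) ≤ ((ρ' + 4 * ρ' : ℤ) : ℝ) := by exact_mod_cast h6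
      have h8 : ((8 * ρ' : ℤ) : ℝ) ≤ ((m : ℤ) : ℝ) := by exact_mod_cast hm'
      have h9 : (1 : ℝ) ≤ ρ' := by exact_mod_cast hρ'
      push_cast at h7 h8 h2
      linarith
    · intro ω ω' _
      rw [Tc_plain hl', Tc_plain hl']
  · have e : ∀ R ω, Tc θ r.I r k R ω = 1 := fun R ω => Tc_plain hk R ω
    simp only [e, mul_one]
    have hE : 0 ≤ EF P r.I r.fr (fun ω => ∏ l ∈ univ.erase k, Tc θ r.I r l (s l) ω) :=
      EF_nonneg fun ω => prod_nonneg fun _ _ => Tc_nonneg h0 h1 _ _ _ _ _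
    exact le_mul_of_one_le_left hE hC

/-- Replace the radius of one centre. -/
theorem prod_upd (θ : ℝ) (r : Row) (k : Fin 3) (s : Fin 3 → ℤ) (ρ : ℤ) (ω : Cfg) :
    (∏ l ∈ univ.erase k, Tc θ r.I r l (s l) ω) * Tc θ r.I r k ρ ω =
      ∏ l, Tc θ r.I r l (Function.update s k ρ l) ω := by
  rw [← Finset.prod_erase_mul univ _ (mem_univ k), Function.update_self]
  congr 1
  refine prod_congr rfl fun l hl => ?_
  rw [Function.update_of_ne (ne_of_mem_erase hl)]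

/-- **One row: comparison of the radii.** -/
theorem row_radii (h0 : 0 < θ) (h1 : θ ≤ Real.pi / 3) {P : Measure Cfg}
    (hP : IsLim (2 * Real.cos θ) P) (hg : ∀ᵐ ω ∂P, Good ω) {r : Row} {m : ℕ} (hr : r.Ok θ 1 m)
    (hm : 1 ≤ m) {ρ ρ' : ℤ} {C : ℝ} (hC : 1 ≤ C)
    (h : ∀ k, Sp r k → ∀ η : Cfg, Good η → (∀ v ∈ r.I, η v = r.fr v) →
      Ex (2 * Real.cos θ) (Bq (ctr r k) (4 * ρ') \ r.I) η (Tc θ r.I r k ρ) ≤
        C * Ex (2 * Real.cos θ) (Bq (ctr r k) (4 * ρ') \ r.I) η (Tc θ r.I r k ρ'))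
    (hρ : ρ ≤ ρ') (hρ' : 1 ≤ ρ') (hm' : 8 * ρ' ≤ m) :
    EF P r.I r.fr (TT θ r.I r ρ) ≤ C ^ 3 * EF P r.I r.fr (TT θ r.I r ρ') := by
  have step : ∀ (k : Fin 3) (s : Fin 3 → ℤ), (∀ l, s l ≤ ρ') → s k = ρ →
      EF P r.I r.fr (fun ω => ∏ l, Tc θ r.I r l (s l) ω) ≤
        C * EF P r.I r.fr (fun ω => ∏ l, Tc θ r.I r l (Function.update s k ρ' l) ω) := by
    intro k s hs hsk
    have h2 := row_step h0 h1 hP hg hr hm (k := k) hC (h k) hρ' hm' s hs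
    simp only [prod_upd] at h2
    have e : Function.update s k ρ = s := by rw [← hsk, Function.update_eq_self]
    rw [e] at h2
    exact h2
  have e0 : (TT θ r.I r ρ) = fun ω => ∏ l, Tc θ r.I r l ((fun _ => ρ : Fin 3 → ℤ) l) ω :=
    funext fun ω => TT_eq _ _ _ _ _
  have e1 : (TT θ r.I r ρ') = fun ω => ∏ l, Tc θ r.I r l ((fun _ => ρ' : Fin 3 → ℤ) l) ω :=
    funext fun ω => TT_eq _ _ _ _ _
  rw [e0, e1]
  have s0 : Fin 3 → ℤ := fun _ => ρ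
  have a1 := step 0 (fun _ => ρ) (fun _ => hρ) rfl
  have a2 := step 1 (Function.update (fun _ => ρ) 0 ρ') (fun l => by
    by_cases hl : l = 0
    · subst hl; rw [Function.update_self]
    · rw [Function.update_of_ne hl]; exact hρ) (by
    rw [Function.update_of_ne (by decide)])
  have a3 := step 2 (Function.update (Function.update (fun _ => ρ) 0 ρ') 1 ρ') (fun l => by
    by_cases hl : l = 1
    · subst hl; rw [Function.update_self]
    · rw [Function.update_of_ne hl]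
      by_cases hl : l = 0
      · subst hl; rw [Function.update_self]
      · rw [Function.update_of_ne hl]; exact hρ) (by
    rw [Function.update_of_ne (by decide), Function.update_of_ne (by decide)])
  have e3 : Function.update (Function.update (Function.update (fun _ => ρ) 0 ρ') 1 ρ') 2 ρ' =
      (fun _ => ρ' : Fin 3 → ℤ) := by
    funext l
    fin_cases l <;> simp [Function.update]
  rw [e3] at a3
  have hC0 : 0 ≤ C := by linarith
  calc _ ≤ C * _ := a1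
    _ ≤ C * (C * _) := mul_le_mul_of_nonneg_left a2 hC0
    _ ≤ C * (C * (C * _)) := mul_le_mul_of_nonneg_left (mul_le_mul_of_nonneg_left a3 hC0) hC0
    _ = _ := by ring

/-- The margin of a row and its radius. -/
theorem exists_m {κ : ℝ} {n : ℕ} {r : Row} (hr : r.Ok θ κ n) (hn : 16 ≤ κ * n) :
    ∃ m : ℕ, r.Ok θ 1 m ∧ 1 ≤ m ∧ m ≤ r.L ∧ κ * n ≤ m ∧ rad r = ((m / 8 : ℕ) : ℤ) := by
  by_cases hp : Plain r
  · refine ⟨r.L, ⟨by rw [one_mul], hr.s, Or.inl hp⟩, ?_, le_rfl, hr.len, ?_⟩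
    · have h2 : (1 : ℝ) ≤ r.L := by linarith [hr.len]
      exact_mod_cast h2
    · unfold rad
      rw [if_pos hp]
  · obtain ⟨h2, h3⟩ := ok_k0 hr hp
    have h4 : r.k0 ≤ r.L := by
      have : (r.k0 : ℝ) ≤ r.L := by linarith
      exact_mod_cast this
    have h5 : κ * n ≤ ((r.L - r.k0 : ℕ) : ℝ) := by
      rw [Nat.cast_sub h4]
      linarith
    have h6 : κ * n ≤ ((min r.k0 (r.L - r.k0) : ℕ) : ℝ) := by
      rw [Nat.cast_min]
      exact le_min h2 h5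
    refine ⟨min r.k0 (r.L - r.k0), ⟨?_, hr.s, ?_⟩, ?_, ?_, h6, ?_⟩
    · rw [one_mul]
      exact_mod_cast (min_le_left _ _).trans h4
    · rcases hr.kind with h7 | ⟨h7, -, -⟩
      · exact absurd h7 hp
      · refine Or.inr ⟨h7, ?_, ?_⟩
        · rw [one_mul]
          exact_mod_cast min_le_left _ _
        · rw [one_mul]
          have h8 : r.k0 + min r.k0 (r.L - r.k0) ≤ r.L := by omega
          exact_mod_cast h8
    · have h7 : (1 : ℝ) ≤ ((min r.k0 (r.L - r.k0) : ℕ) : ℝ) := by linarith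
      exact_mod_cast h7
    · omega
    · unfold rad
      rw [if_neg hp]

/-- **One row**, from the radius `κ n / 16` to the intrinsic radius. -/
theorem row_rad (h0 : 0 < θ) (h1 : θ ≤ Real.pi / 3) (ha : P1a θ) {P : Measure Cfg}
    (hP : IsLim (2 * Real.cos θ) P) (hg : ∀ᵐ ω ∂P, Good ω) {κ R : ℝ} (hκ : 0 < κ) :
    ∃ C : ℝ, 1 ≤ C ∧ ∀ᶠ n : ℕ in atTop, ∀ r : Row, r.Ok θ κ n → (r.L : ℝ) ≤ 2 * R * n + 1 →
      ∫ ω, fz r.I r.fr ω * TT θ r.I r ⌊κ * n / 16⌋ ω ∂P ≤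
        C * ∫ ω, fz r.I r.fr ω * TT θ r.I r (rad r) ω ∂P := by
  set Λ : ℝ := max 1 (4 * (2 * |R| + 1) / κ) with hΛ
  obtain ⟨C, ρ₀, hC, hP1⟩ := ha Λ (le_max_left _ _)
  refine ⟨(max C 1) ^ 3, one_le_pow₀ (le_max_right _ _), ?_⟩
  have hlim : Tendsto (fun n : ℕ => κ * (n : ℝ)) atTop atTop :=
    tendsto_natCast_atTop_atTop.const_mul_atTop hκ
  filter_upwards [hlim.eventually_ge_atTop 100, hlim.eventually_ge_atTop (16 * (ρ₀ + 1)),
    eventually_ge_atTop 1] with n hn hnρ hn1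
  intro r hr hL
  have hn1' : (1 : ℝ) ≤ n := by exact_mod_cast hn1
  obtain ⟨m, hm1, hm2, hm3, hm4, hm5⟩ := exists_m hr (by linarith)
  obtain ⟨ρ, hρ⟩ : ∃ ρ : ℤ, ρ = ⌊κ * n / 16⌋ := ⟨_, rfl⟩
  have hρ1 : (ρ : ℝ) ≤ κ * n / 16 := by rw [hρ]; exact Int.floor_le _
  have hρ2 : κ * n / 16 - 1 < ρ := by rw [hρ]; exact Int.sub_one_lt_floor _
  rw [← hρ]
  have h8 : ((m : ℝ) - 7) / 8 ≤ (rad r : ℝ) := by
    rw [hm5, Int.cast_natCast]
    have : (m : ℝ) ≤ 8 * ((m / 8 : ℕ) : ℝ) + 7 := by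
      have h9 : m ≤ 8 * (m / 8) + 7 := by omega
      exact_mod_cast h9
    linarith
  have h9 : (rad r : ℝ) ≤ m / 8 := by
    rw [hm5, Int.cast_natCast]
    have : 8 * ((m / 8 : ℕ) : ℝ) ≤ m := by
      have h9 : 8 * (m / 8) ≤ m := by omega
      exact_mod_cast h9
    linarith
  have hρrad : ρ ≤ rad r := by
    have : (ρ : ℝ) ≤ (rad r : ℝ) := by linarith
    exact_mod_cast this
  have hρpos : 1 ≤ ρ := by
    have : (0 : ℝ) < ρ := by linarith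
    have : 0 < ρ := by exact_mod_cast this
    omega
  have hm8 : 8 * rad r ≤ m := by
    rw [hm5]
    have : 8 * (m / 8) ≤ m := by omega
    exact_mod_cast this
  have hΛρ : (rad r : ℝ) ≤ Λ * ρ := by
    have h10 : κ * n / 32 ≤ (ρ : ℝ) := by linarith
    have h11 : (m : ℝ) ≤ 2 * R * n + 1 := by
      have : (m : ℝ) ≤ r.L := by exact_mod_cast hm3
      linarith
    have h12 : R * n ≤ |R| * n := mul_le_mul_of_nonneg_right (le_abs_self R) (by linarith)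
    have h13 : (m : ℝ) / 8 ≤ (2 * |R| + 1) * n / 8 := by nlinarith
    have h14 : 4 * (2 * |R| + 1) / κ * (κ * n / 32) = (2 * |R| + 1) * n / 8 := by
      field_simp
      ring
    calc (rad r : ℝ) ≤ 4 * (2 * |R| + 1) / κ * (κ * n / 32) := by
          rw [h14]
          linarith
      _ ≤ Λ * (κ * n / 32) := mul_le_mul_of_nonneg_right (le_max_right _ _) (by positivity)
      _ ≤ Λ * ρ := mul_le_mul_of_nonneg_left h10 (by positivity)
  have key := row_radii h0 h1 hP hg hm1 hm2 (ρ := ρ) (ρ' := rad r) (C := max C 1)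
    (le_max_right _ _) (fun k hk η hη hf => by
      have h2 := hP1 r m k ρ (rad r) hm1 hk (by linarith) hρrad hΛρ hm8 η hη hf
      refine h2.trans (mul_le_mul_of_nonneg_right (le_max_left _ _) ?_)
      exact FKA.Ex_nonneg (by linarith [cos_ge h0 h1]) fun S _ => Tc_nonneg h0 h1 _ _ _ _ _)
    hρrad (by omega) hm8
  have hp := fz_pos (cos_ge h0 h1) hP hg r.I r.fr
  unfold EF at key
  rw [← mul_div_assoc, div_le_div_iff_of_pos_right hp] at key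
  exact key

/-! ### decoupling -/

section dec

variable {ι : Type} [Fintype ι] {r : ι → Row} {c : Ed → ℝ} {κ R B : ℝ} {n : ℕ}

theorem fz_prod {σ : Cfg} (hσ : Frz r σ) (ω : Cfg) :
    fz (uI r) σ ω = ∏ i, fz (r i).I (r i).fr ω := by
  by_cases h : ∀ v ∈ uI r, ω v = σ v
  · rw [fz_one h]
    symm
    refine prod_eq_one fun i _ => fz_one fun v hv => ?_
    rw [h v (mem_uI.2 ⟨i, hv⟩)]
    exact hσ i v hv
  · rw [fz_zero h]
    push Not at h
    obtain ⟨v, hv, hne⟩ := h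
    obtain ⟨i, hi⟩ := mem_uI.1 hv
    symm
    refine prod_eq_zero (mem_univ i) (fz_zero fun h' => hne ?_)
    rw [h' v hi]
    exact (hσ i v hi).symm

/-- **Decoupling of the rows.** -/
theorem decouple (h0 : 0 < θ) (h1 : θ ≤ Real.pi / 3) {P : Measure Cfg}
    (hP : IsLim (2 * Real.cos θ) P) {Λ : ℤ} {c' : ℝ} (hc' : Rsc (2 * Real.cos θ) Λ c')
    (hA : (rowC θ r c).Adm κ R B n) (hr : ∀ i, (r i).Ok θ κ n) (hn : 100 ≤ κ * n)
    {σ : Cfg} (hσ : Frz r σ) {ρ : ℤ} (hρ : (ρ : ℝ) ≤ κ * n / 16) (hρΛ : Λ ≤ ρ) (hρ1 : 1 ≤ ρ)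
    {κw : ℤ} (hκw : 0 ≤ κw) (hw : 2 * R * n + 1 ≤ κw * ρ) :
    ∫ ω, fz (uI r) σ ω * PT θ r ρ ω ∂P ≤
      Cw Λ κw c' (Fintype.card ι) * ∏ i, ∫ ω, fz (r i).I (r i).fr ω * TT θ (r i).I (r i) ρ ω ∂P := by
  classical
  have hρκ : (ρ : ℝ) < κ * n := by linarith
  have hL : ∀ i, 1 ≤ (r i).L := fun i => by
    have h2 : (1 : ℝ) ≤ (r i).L := by linarith [(hr i).len]
    exact_mod_cast h2
  have key := (walls_lim hP (cos_ge h0 h1) hc' (κ := κw) (s := ρ) hκw hρΛ (univ : Finset ι)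
    (W := fun i => (r i).I) (x := fun i => (r i).sq 0) (fun i _ w hw' => by
      obtain ⟨k, hk, rfl⟩ := exists_sq hw'
      have h2 := adm_len hA i (hL i)
      have h3 : nm ((r i).sq k - (r i).sq 0) = k := by
        rw [sep_sq]
        simp
      rw [h3]
      have h4 : (k : ℝ) ≤ (r i).L := by exact_mod_cast hk.le
      have h5 : ((k : ℤ) : ℝ) ≤ ((κw * ρ : ℤ) : ℝ) := by
        push_cast
        linarith
      exact_mod_cast h5) (fun i _ j _ hij v hv w hw' => by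
      have h2 := adm_sep hA hij hv hw'
      have h3 : ((6 * ρ : ℤ) : ℝ) < (nm (v - w) : ℝ) := by
        push_cast
        linarith
      exact_mod_cast h3)
    (F := fun i ω => fz (r i).I (r i).fr ω * TT θ (r i).I (r i) ρ ω)
    (fun i _ ω => mul_nonneg (fz_nonneg _ _ _) (TT_nonneg h0 h1 _ _ _ _)) (fun i _ => by
      intro ω ω' hw'
      have hsub : (r i).I ⊆ nbh (r i).I ρ := subset_nbh (by omega)
      have e1 : fz (r i).I (r i).fr ω = fz (r i).I (r i).fr ω' :=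
        fz_loc _ _ _ _ fun v hv => hw' v (hsub hv)
      have e2 : ∀ k, Tc θ (r i).I (r i) k ρ ω = Tc θ (r i).I (r i) k ρ ω' := fun k => by
        by_cases hk : Sp (r i) k
        · refine Tc_loc _ _ _ _ _ _ fun v hv => hw' v (mem_nbh.2 ⟨_, ctr_mem (hr i) (by linarith) hk,
            nm_of_Bq hv⟩)
        · rw [Tc_plain hk, Tc_plain hk]
      show fz (r i).I (r i).fr ω * TT θ (r i).I (r i) ρ ω =
        fz (r i).I (r i).fr ω' * TT θ (r i).I (r i) ρ ω'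
      rw [e1, TT_eq, TT_eq]
      congr 1
      exact prod_congr rfl fun k _ => e2 k)).2
  rw [Finset.card_univ] at key
  refine le_trans (le_of_eq ?_) key
  refine integral_congr_ae (Eventually.of_forall fun ω => ?_)
  show fz (uI r) σ ω * PT θ r ρ ω =
    ∏ i, (fz (r i).I (r i).fr ω * TT θ (r i).I (r i) ρ ω)
  rw [prod_mul_distrib, fz_prod hσ ω, ← PT_eq]
  congr 1
  refine prod_congr rfl fun i _ => ?_
  rw [TT_eq, TT_eq]
  exact prod_congr rfl fun k _ => Tc_adm hA hr (by linarith) (p := (i, k)) hρκ ω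

end dec

/-! ### the upper bound -/

/-- **HOSR.** -/
theorem hosr (h0 : 0 < θ) (h1 : θ ≤ Real.pi / 3) (hR : RSW (2 * Real.cos θ)) {P : Measure Cfg}
    (hP : IsLim (2 * Real.cos θ) P) (hg : ∀ᵐ ω ∂P, Good ω) (hL1 : L1 θ) (ha : P1a θ)
    (hb : P1b θ) : HOSR θ P (Zp θ P) := by
  classical
  have hPp : IsProbabilityMeasure P := hP.1
  have hs : 0 < Real.sin θ := Real.sin_pos_of_pos_of_lt_pi h0 (by linarith [Real.pi_pos])
  intro κ R B M hκ
  obtain ⟨κ₁, hκ₁, hL⟩ := hL1 κ R B M hκ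
  obtain ⟨κ', hκ'⟩ : ∃ κ', κ' = min (κ₁ / 2) (κ / 100) := ⟨_, rfl⟩
  have hκ'0 : 0 < κ' := by rw [hκ']; positivity
  obtain ⟨A, hA1, hLA⟩ := hL κ' hκ'0 (by rw [hκ']; exact (min_le_left _ _).trans_lt (by linarith))
  obtain ⟨C1, hC1, hmaj⟩ := EF_maj (R := R) (B := B) h0 h1 hR hb hP hg M hκ hκ'0
    (by rw [hκ']; exact min_le_right _ _) hA1
  obtain ⟨C2, hC2, hrad⟩ := row_rad (R := R) h0 h1 ha hP hg hκ
  obtain ⟨Λ, c', hΛ, hc', hc'1, hRsc⟩ := rsc_of hR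
  obtain ⟨κw, hκw⟩ : ∃ κw : ℤ, 32 * (2 * |R| + 1) / κ ≤ κw := ⟨⌈_⌉, Int.le_ceil _⟩
  have hκw0 : 0 ≤ κw := by
    have : (0 : ℝ) ≤ κw := le_trans (by positivity) hκw
    exact_mod_cast this
  have hCw : 0 < Cw Λ κw c' M := Cw_pos hc' M
  have hA0 : 0 < A := by linarith
  refine ⟨A * (C1 * Cw Λ κw c' M * C2 ^ M), by positivity, ?_⟩
  have hlim : Tendsto (fun n : ℕ => κ * (n : ℝ)) atTop atTop :=
    tendsto_natCast_atTop_atTop.const_mul_atTop hκ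
  filter_upwards [hLA, hmaj, hrad, hlim.eventually_ge_atTop 100,
    hlim.eventually_ge_atTop (16 * ((Λ : ℝ) + 1)), eventually_ge_atTop 1]
    with n a1 a2 a3 hn hnΛ hn1
  intro ι _ r c hc hM hA hr σ hσ
  have hn1' : (1 : ℝ) ≤ n := by exact_mod_cast hn1
  obtain ⟨N, Z, hLF, hZ, hMaj, hEF⟩ := a2 ι r c hc hM hA hr σ hσ
  obtain ⟨ρ, hρ⟩ : ∃ ρ : ℤ, ρ = ⌊κ * n / 16⌋ := ⟨_, rfl⟩
  rw [← hρ] at hEF
  have hρ1 : (ρ : ℝ) ≤ κ * n / 16 := by rw [hρ]; exact Int.floor_le _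
  have hρ2 : κ * n / 16 - 1 < ρ := by rw [hρ]; exact Int.sub_one_lt_floor _
  have hρΛ : Λ ≤ ρ := by
    have : (Λ : ℝ) < ρ := by linarith
    exact_mod_cast this.le
  have hρpos : 1 ≤ ρ := by omega
  have hpf : 0 < ∫ ω, fz (uI r) σ ω ∂P := fz_pos (cos_ge h0 h1) hP hg _ _
  -- the law-free bound
  obtain ⟨k, hk⟩ : ∃ k : ℝ, k = ∏ i, (2 * Real.sin θ) ^ ((r i).L + 1) := ⟨_, rfl⟩
  have hk0 : 0 ≤ k := by rw [hk]; exact prod_nonneg fun i _ => by positivity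
  set Y : Cfg → ℝ := fun ω => A ^ N ω * Real.exp (-(Real.tan θ * Sm (dv c) (κ' * n) ω)) with hY
  have hYl : LF (fun ω => PT θ r ρ ω * Y ω) := (PT_LF θ r ρ).mul hLF
  have hstep1 : |∫ ω, fz (uI r) σ ω * RT θ (uI r) (rowC θ r c).ph ω ∂P| ≤
      (A * k) * ∫ ω, fz (uI r) σ ω * (PT θ r ρ ω * Y ω) ∂P := by
    rw [← integral_const_mul, ← Real.norm_eq_abs]
    refine norm_integral_le_of_norm_le ((hYl.int hg).const_mul (A * k)) ?_
    filter_upwards [hg] with ω hω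
    rw [Real.norm_eq_abs, abs_mul, abs_of_nonneg (fz_nonneg _ _ _)]
    by_cases hfz : ∀ v ∈ uI r, ω v = σ v
    · have h2 := a1 ι r c hc hM hA hr ω hω (fun i v hv => by
        rw [hfz v (mem_uI.2 ⟨i, hv⟩)]
        exact hσ i v hv) Z (N ω) hZ (hMaj ω hω)
      rw [← hk, ← hρ, PT_eq] at h2
      have h3 := mul_le_mul_of_nonneg_left h2 (fz_nonneg (uI r) σ ω)
      refine h3.trans (le_of_eq ?_)
      rw [hY]
      ring
    · rw [fz_zero hfz]
      simp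
  have hstep2 : ∫ ω, fz (uI r) σ ω * (PT θ r ρ ω * Y ω) ∂P ≤
      C1 * ∫ ω, fz (uI r) σ ω * PT θ r ρ ω ∂P := by
    have h2 := hEF
    unfold EF at h2
    rw [← mul_div_assoc, div_le_div_iff_of_pos_right hpf] at h2
    exact h2
  have hκwρ : 2 * R * n + 1 ≤ κw * ρ := by
    have h10 : κ * n / 32 ≤ (ρ : ℝ) := by linarith
    have h12 : R * n ≤ |R| * n := mul_le_mul_of_nonneg_right (le_abs_self R) (by linarith)
    have h14 : 32 * (2 * |R| + 1) / κ * (κ * n / 32) = (2 * |R| + 1) * n := by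
      field_simp
    calc 2 * R * n + 1 ≤ 32 * (2 * |R| + 1) / κ * (κ * n / 32) := by
          rw [h14]
          nlinarith
      _ ≤ κw * (κ * n / 32) := mul_le_mul_of_nonneg_right hκw (by positivity)
      _ ≤ κw * ρ := mul_le_mul_of_nonneg_left h10 (by exact_mod_cast hκw0)
  have hstep3 := decouple h0 h1 hP hRsc hA hr hn hσ hρ1 hρΛ hρpos hκw0 hκwρ
  have hI0 : ∀ i, 0 ≤ ∫ ω, fz (r i).I (r i).fr ω * TT θ (r i).I (r i) ρ ω ∂P := fun i =>
    integral_nonneg fun ω => mul_nonneg (fz_nonneg _ _ _) (TT_nonneg h0 h1 _ _ _ _)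
  have hI1 : ∀ i, 0 ≤ ∫ ω, fz (r i).I (r i).fr ω * TT θ (r i).I (r i) (rad (r i)) ω ∂P :=
    fun i => integral_nonneg fun ω => mul_nonneg (fz_nonneg _ _ _) (TT_nonneg h0 h1 _ _ _ _)
  have hL : ∀ i, 1 ≤ (r i).L := fun i => by
    have h2 : (1 : ℝ) ≤ (r i).L := by linarith [(hr i).len]
    exact_mod_cast h2
  have hstep4 : ∏ i, ∫ ω, fz (r i).I (r i).fr ω * TT θ (r i).I (r i) ρ ω ∂P ≤
      C2 ^ M * ∏ i, ∫ ω, fz (r i).I (r i).fr ω * TT θ (r i).I (r i) (rad (r i)) ω ∂P := by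
    calc ∏ i, ∫ ω, fz (r i).I (r i).fr ω * TT θ (r i).I (r i) ρ ω ∂P
        ≤ ∏ i, C2 * ∫ ω, fz (r i).I (r i).fr ω * TT θ (r i).I (r i) (rad (r i)) ω ∂P := by
          refine prod_le_prod (fun i _ => hI0 i) fun i _ => ?_
          rw [hρ]
          exact a3 (r i) (hr i) (adm_len hA i (hL i))
      _ = C2 ^ Fintype.card ι *
          ∏ i, ∫ ω, fz (r i).I (r i).fr ω * TT θ (r i).I (r i) (rad (r i)) ω ∂P := by
          rw [prod_mul_distrib, prod_const, Finset.card_univ]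
      _ ≤ _ := mul_le_mul_of_nonneg_right (pow_le_pow_right₀ hC2 hM)
          (prod_nonneg fun i _ => hI1 i)
  have hCwM : Cw Λ κw c' (Fintype.card ι) ≤ Cw Λ κw c' M := Cw_mono hc' hc'1 hM
  have hZ' : ∏ i, Zp θ P n (r i) = k *
      ∏ i, ∫ ω, fz (r i).I (r i).fr ω * TT θ (r i).I (r i) (rad (r i)) ω ∂P := by
    rw [hk, ← prod_mul_distrib]
    rfl
  rw [hZ']
  have hprod0 := prod_nonneg fun i (_ : i ∈ (univ : Finset ι)) => hI0 i
  calc _ ≤ A * k * ∫ ω, fz (uI r) σ ω * (PT θ r ρ ω * Y ω) ∂P := hstep1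
    _ ≤ A * k * (C1 * ∫ ω, fz (uI r) σ ω * PT θ r ρ ω ∂P) :=
        mul_le_mul_of_nonneg_left hstep2 (by positivity)
    _ ≤ A * k * (C1 * (Cw Λ κw c' (Fintype.card ι) *
        ∏ i, ∫ ω, fz (r i).I (r i).fr ω * TT θ (r i).I (r i) ρ ω ∂P)) := by gcongr
    _ ≤ A * k * (C1 * (Cw Λ κw c' M *
        (C2 ^ M * ∏ i, ∫ ω, fz (r i).I (r i).fr ω * TT θ (r i).I (r i) (rad (r i)) ω ∂P))) := by
        gcongr
    _ = _ := by ring

end Vale.Agent.P167.H945.Q
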