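import Vale.Agent.P167.H945.Q.HGeo
import Vale.Agent.P167.H506.Q.OneR

/-!
# P167, general `q`, Q-NORM: moments with the factors of all special points

`PT`: product of the factors of all centres. `EF_lift`: comparison of two local functions in a small
domain, with a factor. `EF_sp`, `EF_zone`, `EF_flow`: moments of the number of the large strands
near a centre, off the centres, and of the masses of the small loops.
-/

namespace Vale.Agent.P167.H945.Q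

open Finset MeasureTheory Filter
open Vale.Agent.P167.BR
open Vale.Agent.P167.XDL (bS mem_bS)
open Vale.Agent.P167.FK
open Vale.Agent.P167.FKA (Loc Ind Loc.ind Ex_mono Ex_congr)
open Vale.Agent.P167.H259 (f_markov)
open Vale.Agent.P167.H519 (IsLim)
open Vale.Agent.P167.H825 (dv epos)
open Vale.Agent.P167.H825.Q (Row)
open Vale.Agent.P167.H680.T (sq_mem sq_inj mem_I rowC uI mem_uI adm_sepd)
open Vale.Agent.P167.H506.Q (EF fz LF EF_tr EF_le EF_lin)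

/-! ### lifting -/

section lift

variable {Q : ℝ} {K D D1 : Finset (ℤ × ℤ)} {σ η : Cfg} {F1 F2 G : Cfg → ℝ} {C : ℝ}
  {P : Measure Cfg}

theorem lift_fin (hQ0 : 0 < Q) (hD1 : D1 ⊆ D) (hDK : Disjoint D K) (hη : Good η)
    (hk : ∀ v ∈ K, η v = σ v) (hG0 : ∀ ω, 0 ≤ G ω) (hG : Ind D1 G)
    (h : ∀ ζ, Good ζ → (∀ v ∈ K, ζ v = σ v) → Ex Q D1 ζ F1 ≤ C * Ex Q D1 ζ F2) :
    Ex Q D η (fun ω => G ω * F1 ω) ≤ C * Ex Q D η (fun ω => G ω * F2 ω) := by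
  have e1 := FKA.markov f_markov hQ0 hD1 hη hG (F := F1)
  have e2 := FKA.markov f_markov hQ0 hD1 hη hG (F := F2)
  rw [e1, e2, ← FKA.Ex_mul_left]
  refine Ex_mono hQ0 fun S _ => ?_
  have h1 := h (cf D η S) (f_good.1 D η S hη) fun v hv => by
    rw [FKA.cf_out (Finset.disjoint_right.1 hDK hv)]
    exact hk v hv
  have h2 := mul_le_mul_of_nonneg_left h1 (hG0 (cf D η S))
  calc G (cf D η S) * Ex Q D1 (cf D η S) F1 ≤ G (cf D η S) * (C * Ex Q D1 (cf D η S) F2) := h2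
    _ = _ := by ring

/-- **Lifting** to the expectations given the frozen squares. -/
theorem EF_lift (hQ : 1 ≤ Q) (hP : IsLim Q P) (hg : ∀ᵐ ω ∂P, Good ω) (hDK : Disjoint D1 K)
    (hG0 : ∀ ω, 0 ≤ G ω) (hG : Ind D1 G) (hGl : LF G) (h1 : LF F1) (h2 : LF F2)
    (h : ∀ ζ, Good ζ → (∀ v ∈ K, ζ v = σ v) → Ex Q D1 ζ F1 ≤ C * Ex Q D1 ζ F2) :
    EF P K σ (fun ω => G ω * F1 ω) ≤ C * EF P K σ (fun ω => G ω * F2 ω) := by
  obtain ⟨R₀, -, hR₀⟩ := H519.exists_Bq D1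
  have := EF_tr hQ hP hg K σ (hGl.mul h1) (hGl.mul h2) (a := 1) (b := C) R₀
    fun D η hD _ hη hk => by
      rw [one_mul]
      exact lift_fin (by linarith) (K := K) (σ := σ) (fun v hv => mem_sdiff.2
        ⟨hD (hR₀ hv), Finset.disjoint_left.1 hDK hv⟩) disjoint_sdiff_self_left hη hk hG0 hG h
  rwa [one_mul] at this

end lift

/-! ### the product of the factors -/

variable {θ κ R B : ℝ} {n : ℕ} {ι : Type} [Fintype ι] {r : ι → Row} {c : Ed → ℝ}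
  {P : Measure Cfg}

/-- The product of the factors of all centres. -/
noncomputable def PT (θ : ℝ) (r : ι → Row) (ρ : ℤ) (ω : Cfg) : ℝ :=
  ∏ p : ι × Fin 3, Tc θ (uI r) (r p.1) p.2 ρ ω

theorem PT_eq (θ : ℝ) (r : ι → Row) (ρ : ℤ) (ω : Cfg) :
    ∏ i, TT θ (uI r) (r i) ρ ω = PT θ r ρ ω := by
  unfold PT
  rw [Fintype.prod_prod_type]
  exact prod_congr rfl fun i _ => TT_eq _ _ _ _ _

theorem PT_nonneg (h0 : 0 < θ) (h1 : θ ≤ Real.pi / 3) (r : ι → Row) (ρ : ℤ) (ω : Cfg) :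
    0 ≤ PT θ r ρ ω := prod_nonneg fun _ _ => Tc_nonneg h0 h1 _ _ _ _ _

theorem LF.prod {α : Type*} (s : Finset α) {F : α → Cfg → ℝ} (h : ∀ a ∈ s, LF (F a)) :
    LF fun ω => ∏ a ∈ s, F a ω := by
  classical
  induction s using Finset.induction_on with
  | empty => exact ⟨∅, fun _ _ _ => rfl⟩
  | insert a s ha ih =>
    simp only [prod_insert ha]
    exact (h a (mem_insert_self _ _)).mul (ih fun b hb => h b (mem_insert_of_mem hb))

theorem PT_LF (θ : ℝ) (r : ι → Row) (ρ : ℤ) : LF (PT θ r ρ) :=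
  LF.prod _ fun _ _ => ⟨_, Tc_loc _ _ _ _⟩

theorem Tc_plain {I : Finset (ℤ × ℤ)} {r : Row} {k : Fin 3} (hk : ¬ Sp r k) (ρ : ℤ) (ω : Cfg) :
    Tc θ I r k ρ ω = 1 := by
  unfold Sp at hk
  push Not at hk
  obtain ⟨rfl, hp⟩ := hk
  unfold Tc
  rw [if_neg (by decide), if_neg (by decide), if_pos hp]

/-- The factors of the centres do not depend on a zone off the boxes of the centres. -/
theorem Tc_ind {U : Finset (ℤ × ℤ)} {ρ : ℤ} {p : ι × Fin 3}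
    (hU : Sp (r p.1) p.2 → ∀ v ∈ U, v ∉ Bq (ctr (r p.1) p.2) ρ) :
    Ind U (Tc θ (uI r) (r p.1) p.2 ρ) := by
  by_cases h : Sp (r p.1) p.2
  · exact Loc.ind (Finset.disjoint_right.2 (hU h)) (Tc_loc _ _ _ _)
  · intro ω ω' _
    rw [Tc_plain h, Tc_plain h]

theorem ind_prod {α : Type*} {U : Finset (ℤ × ℤ)} (s : Finset α) {F : α → Cfg → ℝ}
    (h : ∀ a ∈ s, Ind U (F a)) : Ind U fun ω => ∏ a ∈ s, F a ω :=
  fun ω ω' hw => prod_congr rfl fun a ha => h a ha ω ω' hw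

/-- The frozen state. -/
def Frz (r : ι → Row) (σ : Cfg) : Prop := ∀ i, ∀ v ∈ (r i).I, σ v = (r i).fr v

/-- Rows do not see each other. -/
theorem Tc_adm (hA : (rowC θ r c).Adm κ R B n) (hr : ∀ i, (r i).Ok θ κ n) (hn : 1 < κ * n)
    {p : ι × Fin 3} {ρ : ℤ} (hρ : (ρ : ℝ) < κ * n) (ω : Cfg) :
    Tc θ (uI r) (r p.1) p.2 ρ ω = Tc θ (r p.1).I (r p.1) p.2 ρ ω := by
  by_cases hp : Sp (r p.1) p.2
  · refine Tc_row (fun v hv => mem_uI.2 ⟨_, hv⟩) (fun v hv h => ?_) (fun e he h => ?_) fun h => ?_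
    · refine ctr_row hA hr hn.le hp h (lt_of_le_of_lt ?_ hρ)
      exact_mod_cast nm_of_Bq hv
    · obtain ⟨j, hj⟩ := mem_uI.1 h
      by_cases hij : j = p.1
      · rw [← hij]
        exact hj
      · exfalso
        have h1 := adm_sep hA hij hj he
        have h2 : (nm (hdv e - tlv e) : ℝ) ≤ 1 := by exact_mod_cast H680.T.nm_ht e
        rw [nm_comm] at h1
        linarith
    · have h1 := (ok_k0 (hr p.1) h).2
      have h2 : ((r p.1).k0 : ℝ) ≤ (r p.1).L := by linarith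
      exact_mod_cast h2
  · rw [Tc_plain hp, Tc_plain hp]

/-- **Moments near a centre.** -/
theorem EF_sp (h0 : 0 < θ) (h1 : θ ≤ Real.pi / 3) (hP : IsLim (2 * Real.cos θ) P)
    (hg : ∀ᵐ ω ∂P, Good ω) (hA : (rowC θ r c).Adm κ R B n) (hr : ∀ i, (r i).Ok θ κ n)
    (hn : 10 < κ * n) {σ : Cfg} (hσ : Frz r σ) {p : ι × Fin 3} (hp : Sp (r p.1) p.2) {ρ : ℤ}
    (hρ1 : 1 ≤ ρ) (hρ : (ρ : ℝ) ≤ κ * n / 16) {N : Cfg → ℕ} {s C : ℝ}
    (hN : ∀ ω ω' : Cfg, (∀ v ∈ Bq (ctr (r p.1) p.2) (4 * ρ), ω v = ω' v) → N ω = N ω')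
    (h : ∀ η : Cfg, Good η → (∀ v ∈ (r p.1).I, η v = (r p.1).fr v) →
      Ex (2 * Real.cos θ) (Bq (ctr (r p.1) p.2) (4 * ρ) \ (r p.1).I) η
          (fun ω => Tc θ (r p.1).I (r p.1) p.2 ρ ω * Real.exp (s * (N ω : ℝ))) ≤
        C * Ex (2 * Real.cos θ) (Bq (ctr (r p.1) p.2) (4 * ρ) \ (r p.1).I) η
          (Tc θ (r p.1).I (r p.1) p.2 ρ)) :
    EF P (uI r) σ (fun ω => PT θ r ρ ω * Real.exp (s * (N ω : ℝ))) ≤
      C * EF P (uI r) σ (PT θ r ρ) := by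
  classical
  have hQ : 1 ≤ 2 * Real.cos θ := by
    have := Real.cos_le_cos_of_nonneg_of_le_pi h0.le (by linarith [Real.pi_pos]) h1
    rw [Real.cos_pi_div_three] at this
    linarith
  have hρκ : (ρ : ℝ) < κ * n := by
    have : (1 : ℝ) ≤ ρ := by exact_mod_cast hρ1
    linarith
  set D1 := Bq (ctr (r p.1) p.2) (4 * ρ) \ (r p.1).I with hD1
  set G : Cfg → ℝ := fun ω => ∏ q ∈ univ.erase p, Tc θ (uI r) (r q.1) q.2 ρ ω with hG
  have hPT : ∀ ω, PT θ r ρ ω = G ω * Tc θ (r p.1).I (r p.1) p.2 ρ ω := by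
    intro ω
    unfold PT
    rw [← Finset.prod_erase_mul _ _ (mem_univ p), Tc_adm hA hr (by linarith) hρκ]
  have hDK : Disjoint D1 (uI r) := by
    rw [Finset.disjoint_left]
    intro v hv hv'
    obtain ⟨hv1, hv2⟩ := Finset.mem_sdiff.1 hv
    refine hv2 (ctr_row hA hr (by linarith) hp hv' ?_)
    have h2 : (nm (v - ctr (r p.1) p.2) : ℝ) ≤ (4 * ρ : ℤ) := by exact_mod_cast nm_of_Bq hv1
    push_cast at h2
    linarith
  have hGi : Ind D1 G := by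
    refine ind_prod _ fun q hq => Tc_ind fun hq' v hv hv' => ?_
    have h2 := ctr_sep hA hr (by linarith) hp hq' (ne_of_mem_erase hq).symm
    have h3 := nm_of_Bq (mem_sdiff.1 hv).1
    have h4 := nm_of_Bq hv'
    have h5 := nm_sub_le (ctr (r p.1) p.2) v (ctr (r q.1) q.2)
    rw [nm_comm (ctr (r p.1) p.2) v] at h5
    have h6 : (nm (ctr (r p.1) p.2 - ctr (r q.1) q.2) : ℝ) ≤ ((4 * ρ + ρ : ℤ) : ℝ) := by
      exact_mod_cast h5.trans (add_le_add h3 h4)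
    push_cast at h6
    linarith
  have key := EF_lift hQ hP hg (K := uI r) (σ := σ) (D1 := D1) (G := G) (C := C)
    (F1 := fun ω => Tc θ (r p.1).I (r p.1) p.2 ρ ω * Real.exp (s * (N ω : ℝ)))
    (F2 := Tc θ (r p.1).I (r p.1) p.2 ρ) hDK
    (fun ω => prod_nonneg fun _ _ => Tc_nonneg h0 h1 _ _ _ _ _) hGi
    (LF.prod _ fun _ _ => ⟨_, Tc_loc _ _ _ _⟩)
    (LF.mul ⟨_, Tc_loc _ _ _ _⟩ (LF.comp (N := N) hN fun n : ℕ => Real.exp (s * n)))
    ⟨_, Tc_loc _ _ _ _⟩ fun ζ hζ hk => h ζ hζ fun v hv => by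
      rw [hk v (mem_uI.2 ⟨_, hv⟩)]
      exact hσ _ v hv
  have e1 : (fun ω => PT θ r ρ ω * Real.exp (s * (N ω : ℝ))) = fun ω =>
      G ω * (Tc θ (r p.1).I (r p.1) p.2 ρ ω * Real.exp (s * (N ω : ℝ))) := by
    funext ω
    rw [hPT, mul_assoc]
  have e2 : PT θ r ρ = fun ω => G ω * Tc θ (r p.1).I (r p.1) p.2 ρ ω := funext hPT
  rw [e1, e2]
  exact key

end Vale.Agent.P167.H945.Q
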