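import Vale.Agent.P167.H945.Q.TLoc
import Vale.Agent.P167.H506.Q.Tr

/-!
# P167, general `q`, Q-NORM: geometry of the admissible configurations of rows
-/

namespace Vale.Agent.P167.H945.Q

open Finset MeasureTheory
open Vale.Agent.P167.BR
open Vale.Agent.P167.XDL (bS mem_bS)
open Vale.Agent.P167.FK
open Vale.Agent.P167.FKA (Loc Ind)
open Vale.Agent.P167.H825 (dv epos)
open Vale.Agent.P167.H825.Q (Row)
open Vale.Agent.P167.H680.T (sq_mem sq_inj mem_I rowC uI mem_uI et et_pos et_mem adm_sepd)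

variable {θ κ R B : ℝ} {n : ℕ} {ι : Type} [Fintype ι] {r : ι → Row} {c : Ed → ℝ}

theorem mem_Bq {x v : ℤ × ℤ} {s : ℤ} : v ∈ Bq x s ↔
    x.1 - s ≤ v.1 ∧ v.1 < x.1 + s ∧ x.2 - s ≤ v.2 ∧ v.2 < x.2 + s := by
  unfold Bq
  rw [mem_product, mem_Ico, mem_Ico]
  tauto

theorem nm_of_Bq {x v : ℤ × ℤ} {s : ℤ} (h : v ∈ Bq x s) : nm (v - x) ≤ s := by
  rw [mem_Bq] at h
  show max |v.1 - x.1| |v.2 - x.2| ≤ s
  rw [max_le_iff, abs_le, abs_le]
  omega

theorem Bq_of_nm {x v : ℤ × ℤ} {s : ℤ} (h : nm (v - x) < s) : v ∈ Bq x s := by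
  change max |v.1 - x.1| |v.2 - x.2| < s at h
  rw [max_lt_iff, abs_lt, abs_lt] at h
  rw [mem_Bq]
  omega

theorem nm_sub_le (u v w : ℤ × ℤ) : nm (u - w) ≤ nm (u - v) + nm (v - w) := by
  show max |u.1 - w.1| |u.2 - w.2| ≤ max |u.1 - v.1| |u.2 - v.2| + max |v.1 - w.1| |v.2 - w.2|
  have h1 := abs_sub_le u.1 v.1 w.1
  have h2 := abs_sub_le u.2 v.2 w.2
  have h3 := le_max_left |u.1 - v.1| |u.2 - v.2|
  have h4 := le_max_right |u.1 - v.1| |u.2 - v.2|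
  have h5 := le_max_left |v.1 - w.1| |v.2 - w.2|
  have h6 := le_max_right |v.1 - w.1| |v.2 - w.2|
  exact max_le (by linarith) (by linarith)

theorem nm_comm (u v : ℤ × ℤ) : nm (u - v) = nm (v - u) := by
  show max |u.1 - v.1| |u.2 - v.2| = max |v.1 - u.1| |v.2 - u.2|
  rw [abs_sub_comm u.1, abs_sub_comm u.2]

/-! ### rows -/

theorem sep_sq (r : Row) (k l : ℕ) : nm (r.sq k - r.sq l) = |(k : ℤ) - l| := by
  unfold Row.sq
  cases r.o
  · show max |r.x.1 - r.x.1| |r.x.2 + k - (r.x.2 + l)| = _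
    rw [sub_self, abs_zero, show r.x.2 + k - (r.x.2 + l) = (k : ℤ) - l by ring]
    exact max_eq_right (abs_nonneg _)
  · show max |r.x.1 + k - (r.x.1 + l)| |r.x.2 - r.x.2| = _
    rw [sub_self, abs_zero, show r.x.1 + k - (r.x.1 + l) = (k : ℤ) - l by ring]
    exact max_eq_left (abs_nonneg _)

theorem exists_sq {r : Row} {v : ℤ × ℤ} (h : v ∈ r.I) : ∃ k < r.L, r.sq k = v := by
  unfold Row.I at h
  obtain ⟨k, hk, rfl⟩ := mem_image.1 h
  exact ⟨k, mem_range.1 hk, rfl⟩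

omit [Fintype ι] in
theorem adm_sep (hA : (rowC θ r c).Adm κ R B n) {i j : ι} (hij : i ≠ j) {u v : ℤ × ℤ}
    (hu : u ∈ (r i).I) (hv : v ∈ (r j).I) : κ * n ≤ (nm (u - v) : ℝ) := by
  have h1 := hA.sep i j hij (et (r i) u) (et_mem hu) (et (r j) v) (et_mem hv)
  rwa [et_pos, et_pos] at h1

omit [Fintype ι] in
theorem adm_box (hA : (rowC θ r c).Adm κ R B n) {i : ι} {u : ℤ × ℤ} (hu : u ∈ (r i).I) :
    (nm u : ℝ) ≤ R * n := by
  have h1 := hA.box i (et (r i) u) (et_mem hu)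
  rwa [et_pos] at h1

omit [Fintype ι] in
theorem adm_flow (hA : (rowC θ r c).Adm κ R B n) {e : Ed} (he : c e ≠ 0) :
    (nm (epos e) : ℝ) ≤ R * n ∧ ∀ i, ∀ u ∈ (r i).I, κ * n ≤ (nm (epos e - u) : ℝ) := by
  obtain ⟨h1, h2⟩ := hA.csup e he
  refine ⟨h1, fun i u hu => ?_⟩
  have h3 := h2 i (et (r i) u) (et_mem hu)
  rwa [et_pos] at h3

omit [Fintype ι] in
/-- A row in the box is not long. -/
theorem adm_len (hA : (rowC θ r c).Adm κ R B n) (i : ι) (h1 : 1 ≤ (r i).L) :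
    ((r i).L : ℝ) ≤ 2 * R * n + 1 := by
  have h2 := adm_box hA (sq_mem.2 (show 0 < (r i).L by omega))
  have h3 := adm_box hA (sq_mem.2 (show (r i).L - 1 < (r i).L by omega))
  have h4 := sep_sq (r i) ((r i).L - 1) 0
  have h5 := nm_sub_le ((r i).sq ((r i).L - 1)) 0 ((r i).sq 0)
  rw [h4, sub_zero, zero_sub, H199.nm_neg] at h5
  have h6 : (((r i).L : ℤ) : ℝ) - 1 ≤ (nm ((r i).sq ((r i).L - 1)) : ℝ) + nm ((r i).sq 0) := by
    have h7 : ((r i).L : ℤ) - 1 ≤ |(((r i).L - 1 : ℕ) : ℤ) - (0 : ℕ)| := by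
      refine le_trans (le_of_eq ?_) (le_abs_self _)
      push_cast [Nat.cast_sub h1]
      ring
    exact_mod_cast h7.trans h5
  push_cast at h6
  linarith

/-! ### centres -/

/-- The centre is a special point. -/
def Sp (r : Row) (k : Fin 3) : Prop := k = 2 → ¬ Plain r

theorem ok_k0 {r : Row} (hr : r.Ok θ κ n) (hp : ¬ Plain r) : κ * n ≤ r.k0 ∧ r.k0 + κ * n ≤ r.L := by
  rcases hr.kind with h | h
  · exact absurd h hp
  · exact h.2

theorem ctr0 (r : Row) : ctr r 0 = r.sq 0 := rfl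
theorem ctr1 (r : Row) : ctr r 1 = r.sq (r.L - 1) := rfl
theorem ctr2 (r : Row) : ctr r 2 = r.sq r.k0 := rfl

theorem ctr_mem {r : Row} (hr : r.Ok θ κ n) (hn : 1 ≤ κ * n) {k : Fin 3} (hk : Sp r k) :
    ctr r k ∈ r.I := by
  have hL : 1 ≤ r.L := by
    have := hn.trans hr.len
    exact_mod_cast this
  fin_cases k
  · exact sq_mem.2 (by omega)
  · exact sq_mem.2 (by omega)
  · have h1 := (ok_k0 hr (hk rfl)).2
    refine sq_mem.2 ?_
    have h2 : (r.k0 : ℝ) < r.L := by linarith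
    exact_mod_cast h2

theorem ctr_sep1 {r : Row} (hr : r.Ok θ κ n) (hn : 1 ≤ κ * n) {k l : Fin 3} (hk : Sp r k)
    (hl : Sp r l) (hkl : k ≠ l) : κ * n - 1 ≤ (nm (ctr r k - ctr r l) : ℝ) := by
  have hlen := hr.len
  have hL : 1 ≤ r.L := by
    have := hn.trans hr.len
    exact_mod_cast this
  have e01 : nm (r.sq 0 - r.sq (r.L - 1)) = (r.L : ℤ) - 1 := by
    rw [sep_sq, abs_sub_comm]
    push_cast [Nat.cast_sub hL]
    rw [sub_zero]
    exact abs_of_nonneg (by omega)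
  have e02 : nm (r.sq 0 - r.sq r.k0) = r.k0 := by
    rw [sep_sq, abs_sub_comm]
    push_cast
    rw [sub_zero]
    exact abs_of_nonneg (by omega)
  have h01 : κ * n - 1 ≤ (nm (r.sq 0 - r.sq (r.L - 1)) : ℝ) := by
    rw [e01]
    push_cast
    linarith
  have h02 : ¬ Plain r → κ * n - 1 ≤ (nm (r.sq 0 - r.sq r.k0) : ℝ) := by
    intro hp
    rw [e02]
    have := (ok_k0 hr hp).1
    push_cast
    linarith
  have h12 : ¬ Plain r → κ * n - 1 ≤ (nm (r.sq (r.L - 1) - r.sq r.k0) : ℝ) := by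
    intro hp
    have h := (ok_k0 hr hp).2
    have h' : r.k0 ≤ r.L - 1 := by
      have h2 : (r.k0 : ℝ) + 1 ≤ r.L := by linarith
      have h3 : r.k0 + 1 ≤ r.L := by exact_mod_cast h2
      omega
    rw [sep_sq]
    push_cast [Nat.cast_sub hL]
    have h4 : (r.L : ℝ) - 1 - r.k0 ≤ |(r.L : ℝ) - 1 - r.k0| := le_abs_self _
    linarith
  fin_cases k <;> fin_cases l
  · exact absurd rfl hkl
  · exact h01
  · exact h02 (hl rfl)
  · rw [nm_comm]; exact h01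
  · exact absurd rfl hkl
  · exact h12 (hl rfl)
  · rw [nm_comm]; exact h02 (hk rfl)
  · rw [nm_comm]; exact h12 (hk rfl)
  · exact absurd rfl hkl

omit [Fintype ι] in
/-- The special points are separate. -/
theorem ctr_sep (hA : (rowC θ r c).Adm κ R B n) (hr : ∀ i, (r i).Ok θ κ n) (hn : 1 ≤ κ * n)
    {p p' : ι × Fin 3} (hp : Sp (r p.1) p.2) (hp' : Sp (r p'.1) p'.2) (h : p ≠ p') :
    κ * n - 1 ≤ (nm (ctr (r p.1) p.2 - ctr (r p'.1) p'.2) : ℝ) := by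
  by_cases h1 : p.1 = p'.1
  · obtain ⟨i, k⟩ := p
    obtain ⟨i', k'⟩ := p'
    obtain rfl : i = i' := h1
    exact ctr_sep1 (hr i) hn hp hp' fun h2 => h (Prod.ext rfl h2)
  · have := adm_sep hA h1 (ctr_mem (hr _) hn hp) (ctr_mem (hr _) hn hp')
    linarith

/-- A centre and the squares of another row. -/
theorem ctr_row (hA : (rowC θ r c).Adm κ R B n) (hr : ∀ i, (r i).Ok θ κ n) (hn : 1 ≤ κ * n)
    {i : ι} {k : Fin 3} (hk : Sp (r i) k) {v : ℤ × ℤ} (hv : v ∈ uI r)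
    (h : (nm (v - ctr (r i) k) : ℝ) < κ * n) : v ∈ (r i).I := by
  obtain ⟨j, hj⟩ := mem_uI.1 hv
  by_cases hij : j = i
  · subst hij
    exact hj
  · exact absurd (adm_sep hA hij hj (ctr_mem (hr i) hn hk)) (not_le.2 h)

end Vale.Agent.P167.H945.Q
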