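import Vale.Agent.P167.H945.Q.TDefs
import Vale.Agent.P167.H680.T.Red
import Vale.Agent.P167.H562.Q.MQ3

/-!
# P167, general `q`, Q-NORM: the literal inputs of `HOSR`

`L1`: the law-free majorant. `P1a`: comparison of the radii of the factors of a special point, for
arbitrary boundary conditions. `P1b`: moments of the number of the large strands near a special
point, with the factor of the special point.
-/

namespace Vale.Agent.P167.H945.Q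

open Finset MeasureTheory Filter
open Vale.Agent.P167.BR
open Vale.Agent.P167.FK
open Vale.Agent.P167.H825 (dv)
open Vale.Agent.P167.H825.Q (Row)
open Vale.Agent.P167.H680.T (rowC uI)
open Vale.Agent.P167.QX (RT)
open Vale.Agent.P167.H562.QM (MajA)
open Vale.Agent.P167.H562.MAJ (Sm)

/-- The centres: the two ends and the junction. -/
def ctr (r : Row) : Fin 3 → ℤ × ℤ := ![r.sq 0, r.sq (r.L - 1), r.sq r.k0]

open Classical in
/-- The factors of the centres (both faces of the junction together; `1` if there is none). -/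
noncomputable def Tc (θ : ℝ) (I : Finset (ℤ × ℤ)) (r : Row) (i : Fin 3) (R : ℤ) (ω : Cfg) : ℝ :=
  if i = 0 then (tipL θ r).T I R ω
  else if i = 1 then (tipR θ r).T I R ω
  else if Plain r then 1 else (jn θ r true).T I R ω * (jn θ r false).T I R ω

theorem TT_eq (θ : ℝ) (I : Finset (ℤ × ℤ)) (r : Row) (R : ℤ) (ω : Cfg) :
    TT θ I r R ω = ∏ i, Tc θ I r i R ω := by
  rw [Fin.prod_univ_three]
  unfold TT Tc
  simp

/-- **The law-free majorant** of the functional of an admissible configuration of rows. -/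
def L1 (θ : ℝ) : Prop :=
  ∀ (κ R B : ℝ) (M : ℕ), 0 < κ → ∃ κ₁ : ℝ, 0 < κ₁ ∧ ∀ κ' : ℝ, 0 < κ' → κ' < κ₁ →
    ∃ A : ℝ, 1 ≤ A ∧ ∀ᶠ n : ℕ in atTop, ∀ (ι : Type) [Fintype ι] (r : ι → Row) (c : Ed → ℝ),
      (Function.support c).Finite → Fintype.card ι ≤ M → (rowC θ r c).Adm κ R B n →
      (∀ i, (r i).Ok θ κ n) → ∀ ω : Cfg, Good ω → (∀ i, ∀ v ∈ (r i).I, ω v = (r i).fr v) →
      ∀ (Z : Finset (ℤ × ℤ)) (N : ℕ), (∀ v : ℤ × ℤ, (nm v : ℝ) ≤ (R + 1) * n → v ∈ Z) →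
        MajA Z (κ' * n) ω N →
        |RT θ (uI r) (rowC θ r c).ph ω| ≤ (∏ i, (2 * Real.sin θ) ^ ((r i).L + 1)) * (A ^ (N + 1) *
          Real.exp (-(Real.tan θ * Sm (dv c) (κ' * n) ω)) *
          ∏ i, TT θ (uI r) (r i) ⌊κ * n / 16⌋ ω)

/-- **Comparison of the radii**: all boundary conditions. -/
def P1a (θ : ℝ) : Prop :=
  ∀ Λ : ℝ, 1 ≤ Λ → ∃ C ρ₀ : ℝ, 0 < C ∧ ∀ (r : Row) (m : ℕ) (i : Fin 3) (ρ ρ' : ℤ),
    r.Ok θ 1 m → (i = 2 → ¬ Plain r) → ρ₀ ≤ ρ → ρ ≤ ρ' → (ρ' : ℝ) ≤ Λ * ρ → 8 * ρ' ≤ m →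
    ∀ η : Cfg, Good η → (∀ v ∈ r.I, η v = r.fr v) →
      Ex (2 * Real.cos θ) (Bq (ctr r i) (4 * ρ') \ r.I) η (Tc θ r.I r i ρ) ≤
        C * Ex (2 * Real.cos θ) (Bq (ctr r i) (4 * ρ') \ r.I) η (Tc θ r.I r i ρ')

/-- **Moments of the number of the large strands near a special point**: all boundary conditions. -/
def P1b (θ : ℝ) : Prop :=
  ∀ ε s : ℝ, 0 < ε → ∃ C ρ₀ : ℝ, 0 < C ∧ ∀ (r : Row) (m : ℕ) (i : Fin 3) (ρ : ℤ),
    r.Ok θ 1 m → (i = 2 → ¬ Plain r) → ρ₀ ≤ ρ → 8 * ρ ≤ m → ∃ N : Cfg → ℕ,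
    (∀ ω ω' : Cfg, (∀ v ∈ Bq (ctr r i) (4 * ρ), ω v = ω' v) → N ω = N ω') ∧
    (∀ ω, Good ω → MajA (Bq (ctr r i) (2 * ρ)) (ε * ρ) ω (N ω)) ∧
    ∀ η : Cfg, Good η → (∀ v ∈ r.I, η v = r.fr v) →
      Ex (2 * Real.cos θ) (Bq (ctr r i) (4 * ρ) \ r.I) η
          (fun ω => Tc θ r.I r i ρ ω * Real.exp (s * (N ω : ℝ))) ≤
        C * Ex (2 * Real.cos θ) (Bq (ctr r i) (4 * ρ) \ r.I) η (Tc θ r.I r i ρ)

end Vale.Agent.P167.H945.Q
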