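import Vale.Agent.P167.H945.Q.HZone

/-!
# P167, general `q`, Q-NORM: moments of the masses of the small loops
-/

namespace Vale.Agent.P167.H945.Q

open Finset MeasureTheory Filter
open Vale.Agent.P167.BR
open Vale.Agent.P167.FK
open Vale.Agent.P167.FKA (Loc Ind Loc.ind Ex_mono Ex_congr)
open Vale.Agent.P167.H519 (IsLim)
open Vale.Agent.P167.H825 (dv epos)
open Vale.Agent.P167.H825.Q (Row)
open Vale.Agent.P167.H166 (bxx mem_bxx)
open Vale.Agent.P167.H680.T (rowC uI mem_uI)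
open Vale.Agent.P167.H506.Q (EF fz LF EF_tr EF_le EF_lin)
open Vale.Agent.P167.H562.QM
open Vale.Agent.P167.H562.MAJ (Sm exists_cball)

/-! ### the total charge of a flow -/

/-- The total charge of a finite flow. -/
theorem fsum_dv {c : Ed → ℝ} (hc : (Function.support c).Finite) : ∑ᶠ z, dv c z = 0 := by
  have key : ∀ (g : ℤ × ℤ → Ed), Function.Injective g →
      (Function.support fun z => c (g z)).Finite := fun g hg => by
    refine Set.Finite.of_finite_image (f := g) (hc.subset ?_) (hg.injOn)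
    rintro _ ⟨z, hz, rfl⟩
    exact hz
  have e : ∀ (g : ℤ × ℤ → Ed) (a b : ℤ), ∑ᶠ z : ℤ × ℤ, c (g (z.1 - a, z.2 - b)) =
      ∑ᶠ z, c (g z) := fun g a b => by
    have h := finsum_comp_equiv (Equiv.subRight ((a, b) : ℤ × ℤ)) (f := fun z => c (g z))
    rw [← h]
    rfl
  have i1 : ∀ a b : ℤ, Function.Injective fun z : ℤ × ℤ => (Sum.inl (z.1 - a, z.2 - b) : Ed) := by
    intro a b z w h
    have h1 := Sum.inl.inj h
    have h2 := congrArg Prod.fst h1
    have h3 := congrArg Prod.snd h1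
    simp only at h2 h3
    exact Prod.ext (by linarith) (by linarith)
  have i2 : ∀ a b : ℤ, Function.Injective fun z : ℤ × ℤ => (Sum.inr (z.1 - a, z.2 - b) : Ed) := by
    intro a b z w h
    have h1 := Sum.inr.inj h
    have h2 := congrArg Prod.fst h1
    have h3 := congrArg Prod.snd h1
    simp only at h2 h3
    exact Prod.ext (by linarith) (by linarith)
  have e0 : ∀ z, dv c z = (c (Sum.inl (z.1 - 1, z.2 - 1)) - c (Sum.inl (z.1 - 1, z.2 - 0))) +
      (c (Sum.inr (z.1 - 0, z.2 - 1)) - c (Sum.inr (z.1 - 1, z.2 - 1))) := fun z => by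
    unfold H825.dv
    rw [sub_zero, sub_zero]
    ring
  have f1 := key _ (i1 1 1)
  have f2 := key _ (i1 1 0)
  have f3 := key _ (i2 0 1)
  have f4 := key _ (i2 1 1)
  rw [finsum_congr e0, finsum_add_distrib, finsum_sub_distrib f1 f2, finsum_sub_distrib f3 f4,
    e Sum.inl 1 1, e Sum.inl 1 0, e Sum.inr 0 1, e Sum.inr 1 1, sub_self, sub_self, add_zero]
  · exact (f1.union f2).subset fun z hz => by
      by_contra h
      rw [Set.mem_union, not_or, Function.notMem_support, Function.notMem_support] at h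
      exact hz (by show _ - _ = (0 : ℝ); rw [h.1, h.2, sub_zero])
  · exact (f3.union f4).subset fun z hz => by
      by_contra h
      rw [Set.mem_union, not_or, Function.notMem_support, Function.notMem_support] at h
      exact hz (by show _ - _ = (0 : ℝ); rw [h.1, h.2, sub_zero])

/-- A charge is next to the flow. -/
theorem dv_near {c : Ed → ℝ} {z : ℤ × ℤ} (h : dv c z ≠ 0) :
    ∃ e, c e ≠ 0 ∧ nm (epos e - z) ≤ 1 := by
  by_contra hn
  push Not at hn
  apply h
  have h1 : ∀ e, nm (epos e - z) ≤ 1 → c e = 0 := fun e he => by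
    by_contra hc
    have := hn e hc
    omega
  have k : ∀ a b : ℤ, |a| ≤ 1 → |b| ≤ 1 → nm (((z.1 + a, z.2 + b) : ℤ × ℤ) - z) ≤ 1 := by
    intro a b ha hb
    show max |z.1 + a - z.1| |z.2 + b - z.2| ≤ 1
    rw [add_sub_cancel_left, add_sub_cancel_left]
    exact max_le ha hb
  have k1 := h1 (Sum.inl (z.1 - 1, z.2 - 1)) (k (-1) (-1) (by norm_num) (by norm_num))
  have k2 := h1 (Sum.inl (z.1 - 1, z.2)) (by
    have := k (-1) 0 (by norm_num) (by norm_num)
    rwa [add_zero] at this)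
  have k3 := h1 (Sum.inr (z.1, z.2 - 1)) (by
    have := k 0 (-1) (by norm_num) (by norm_num)
    rwa [add_zero] at this)
  have k4 := h1 (Sum.inr (z.1 - 1, z.2 - 1)) (k (-1) (-1) (by norm_num) (by norm_num))
  unfold H825.dv
  rw [k1, k2, k3, k4]
  ring

variable {θ : ℝ}

theorem tan_le (h0 : 0 < θ) (h1 : θ ≤ Real.pi / 3) : 0 ≤ Real.tan θ ∧ Real.tan θ ≤ 2 := by
  have hp := Real.pi_pos
  refine ⟨Real.tan_nonneg_of_nonneg_of_le_pi_div_two h0.le (by linarith), ?_⟩
  have h2 : Real.tan θ ≤ Real.tan (Real.pi / 3) := by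
    rcases h1.eq_or_lt with h | h
    · rw [h]
    · exact (Real.tan_lt_tan_of_nonneg_of_lt_pi_div_two h0.le (by linarith) h).le
  rw [Real.tan_pi_div_three] at h2
  have h3 : √(3 : ℝ) ≤ 2 := by
    rw [Real.sqrt_le_left (by norm_num)]
    norm_num
  linarith

/-- **Moments of the masses of the small loops of the flow.** -/
theorem EF_flow (h0 : 0 < θ) (h1 : θ ≤ Real.pi / 3) (hR : RSW (2 * Real.cos θ)) {P : Measure Cfg}
    (hP : IsLim (2 * Real.cos θ) P) (hg : ∀ᵐ ω ∂P, Good ω) {κ κ' R B : ℝ} (s : ℝ) (hκ : 0 < κ)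
    (hκ' : 0 < κ') (hκκ : κ' ≤ κ / 100) (hs : 0 ≤ s) :
    ∃ C n₀ : ℝ, 0 < C ∧ 0 < n₀ ∧ ∀ n : ℕ, n₀ ≤ n → ∀ {ι : Type} [Fintype ι] {r : ι → Row}
      {c : Ed → ℝ}, (Function.support c).Finite → (rowC θ r c).Adm κ R B n →
      (∀ i, (r i).Ok θ κ n) → ∀ (σ : Cfg) (ρ : ℤ), (ρ : ℝ) ≤ κ * n / 16 →
      ∀ t : ℝ, 0 ≤ t → t ≤ s →
      LF (fun ω => Real.exp (-(t * (Real.tan θ * Sm (dv c) (κ' * n) ω)))) ∧
      EF P (uI r) σ (fun ω => PT θ r ρ ω *
          Real.exp (-(t * (Real.tan θ * Sm (dv c) (κ' * n) ω)))) ≤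
        C * EF P (uI r) σ (PT θ r ρ) := by
  classical
  have hQ := cos_ge h0 h1
  obtain ⟨ht0, ht2⟩ := tan_le h0 h1
  obtain ⟨ε, C, ρ0, hε, hC, hρ0, key⟩ := YQ_mom hQ hR hP κ' (|R| + 1) (|B| + 1) s 1 0 hκ'
    (by positivity) (by positivity) hs le_rfl
  refine ⟨C, max ρ0 (10 / κ), hC, lt_of_lt_of_le (by linarith : 0 < ρ0) (le_max_left _ _),
    fun n hn ι _ r c hc hA hr σ ρ hρ t ht hts => ?_⟩
  have hn0 : ρ0 ≤ (n : ℝ) := (le_max_left _ _).trans hn
  have hn1 : (1 : ℝ) ≤ n := hρ0.trans hn0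
  have hκn : 10 ≤ κ * n := by
    have h2 : 10 / κ ≤ (n : ℝ) := (le_max_right _ _).trans hn
    rw [div_le_iff₀ hκ] at h2
    linarith
  have hκ'n : κ' * n ≤ κ * n / 100 := by
    have := mul_le_mul_of_nonneg_right hκκ (by linarith : (0 : ℝ) ≤ n)
    linarith
  obtain ⟨N, -, -, hN3⟩ := key n hn0 0 ∅ (fun v hv => absurd hv (Finset.notMem_empty v)) Fin.elim0
  -- the charges
  have hf0 : ∀ z, dv c z ≠ 0 → (nm z : ℝ) ≤ |R| * n + 1 ∧
      ∀ i, ∀ u ∈ (r i).I, κ * n - 1 ≤ (nm (z - u) : ℝ) := by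
    intro z hz
    obtain ⟨e, he, hez⟩ := dv_near hz
    obtain ⟨h2, h3⟩ := adm_flow hA he
    have hez' : (nm (epos e - z) : ℝ) ≤ 1 := by exact_mod_cast hez
    constructor
    · have h4 : (nm z : ℝ) ≤ nm (z - epos e) + nm (epos e) := by
        have := nm_sub_le z (epos e) 0
        rw [sub_zero, sub_zero] at this
        exact_mod_cast this
      rw [nm_comm z] at h4
      have h5 : R * n ≤ |R| * n := mul_le_mul_of_nonneg_right (le_abs_self R) (by linarith)
      linarith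
    · intro i u hu
      have h4 := h3 i u hu
      have h5 : (nm (epos e - u) : ℝ) ≤ nm (epos e - z) + nm (z - u) := by
        exact_mod_cast nm_sub_le _ z u
      linarith
  have hfs : ∀ z, dv c z ≠ 0 → (nm (z - (0 : ℤ × ℤ)) : ℝ) ≤ (|R| + 1) * n := fun z hz => by
    rw [sub_zero]
    have := (hf0 z hz).1
    nlinarith
  have hfb : ∀ z, |dv c z| ≤ (|B| + 1) / (n : ℝ) ^ 2 := fun z => by
    refine (hA.dle z).trans (div_le_div_of_nonneg_right ?_ (by positivity))
    linarith [le_abs_self B]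
  obtain ⟨F, hF⟩ := exists_cball 0 ((|R| + 1) * n)
  have hF' : ∀ z, dv c z ≠ 0 → z ∈ F := fun z h => (hF z).2 (hfs z h)
  obtain ⟨A0, hA0⟩ := Sm_Loc hF' (κ' * n)
  have hLF : LF (fun ω => Real.exp (-(t * (Real.tan θ * Sm (dv c) (κ' * n) ω)))) :=
    ⟨A0, fun ω ω' hw => by
      show Real.exp (-(t * (Real.tan θ * Sm (dv c) (κ' * n) ω))) =
        Real.exp (-(t * (Real.tan θ * Sm (dv c) (κ' * n) ω')))
      rw [hA0 ω ω' hw]⟩
  refine ⟨hLF, ?_⟩
  -- the range of the flow
  obtain ⟨R₁, hR₁⟩ : ∃ R₁ : ℤ, (|R| * n + 1 + 33 * κ' * n) < R₁ := exists_int_gt _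
  have := EF_tr hQ hP hg (uI r) σ ((PT_LF θ r ρ).mul hLF) (PT_LF θ r ρ) (a := 1) (b := C) R₁
    fun D η hD _ hη hk => by
      rw [one_mul]
      have h2 := hN3 (D \ uI r) η hη (fun y a ha hz => by
          obtain ⟨u, hu, -⟩ := hz y (mem_bxx.2 (by
            rw [sub_self]
            have : nm (0 : ℤ × ℤ) = 0 := by simp [nm]
            omega))
          exact absurd hu (Finset.notMem_empty u)) (dv c) hfb hfs (fun z hz v hv => by
          obtain ⟨h2, h3⟩ := hf0 z hz
          refine Finset.mem_sdiff.2 ⟨hD (Bq_of_nm ?_), fun hv' => ?_⟩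
          · have h4 : (nm (v - 0) : ℝ) ≤ nm (v - z) + nm (z - 0) := by
              exact_mod_cast nm_sub_le v z 0
            rw [sub_zero z] at h4
            have h5 : (nm (v - 0) : ℝ) < R₁ := by linarith
            exact_mod_cast h5
          · obtain ⟨i, hi⟩ := mem_uI.1 hv'
            have h4 := h3 i v hi
            rw [nm_comm] at h4
            linarith) (PT θ r ρ) (fun ω => PT_nonneg h0 h1 r ρ ω) (fun ω ω' hw => by
          refine prod_congr rfl fun p _ => Tc_off fun hp v hv => hw v fun hv' => ?_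
          rcases hv'.2 with ⟨u, hu, -⟩ | ⟨z, hz, hvz⟩
          · exact absurd hu (Finset.notMem_empty u)
          · have h2 := (hf0 z hz).2 p.1 _ (ctr_mem (hr p.1) (by linarith) hp)
            have h3 : (nm (v - ctr (r p.1) p.2) : ℝ) ≤ ρ := by exact_mod_cast nm_of_Bq hv
            have h4 : (nm (z - ctr (r p.1) p.2) : ℝ) ≤ nm (z - v) + nm (v - ctr (r p.1) p.2) := by
              exact_mod_cast nm_sub_le z v _
            rw [nm_comm z v] at h4
            linarith) (Real.tan θ) t ht0 ht2 ht hts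
      rw [fsum_dv hc, mul_zero, zero_mul, neg_zero, Real.exp_zero, mul_one] at h2
      refine le_trans (le_of_eq ?_) h2
      refine Ex_congr fun S _ => ?_
      congr 1
      unfold YQ
      rw [one_pow, one_mul, ← Real.exp_mul]
      congr 1
      ring
  rwa [one_mul] at this

end Vale.Agent.P167.H945.Q
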