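import Vale.Agent.P167.H945.Q.HFlow

/-!
# P167, general `q`, Q-NORM: moments of the law-free majorant
-/

namespace Vale.Agent.P167.H945.Q

open Finset MeasureTheory Filter
open Vale.Agent.P167.BR
open Vale.Agent.P167.FK
open Vale.Agent.P167.FKA (Loc Ind Loc.ind Ex_mono Ex_congr)
open Vale.Agent.P167.H519 (IsLim)
open Vale.Agent.P167.H825 (dv epos)
open Vale.Agent.P167.H825.Q (Row)
open Vale.Agent.P167.H680.T (rowC uI mem_uI)
open Vale.Agent.P167.H506.Q (EF fz LF EF_tr EF_le EF_lin EF_nonneg)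
open Vale.Agent.P167.H562.QM (MajA)
open Vale.Agent.P167.H562.MAJ (Sm)

/-! ### elementary -/

theorem prod_le_pow {α : Type*} (s : Finset α) (hs : s.Nonempty) (f : α → ℝ)
    (h : ∀ a ∈ s, 0 ≤ f a) : ∏ a ∈ s, f a ≤ ∑ a ∈ s, f a ^ s.card := by
  obtain ⟨a0, ha0, hmax⟩ := exists_max_image s f hs
  calc ∏ a ∈ s, f a ≤ ∏ _a ∈ s, f a0 := prod_le_prod h fun a ha => hmax a ha
    _ = f a0 ^ s.card := by rw [prod_const]
    _ ≤ ∑ a ∈ s, f a ^ s.card :=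
        single_le_sum (f := fun a => f a ^ s.card) (fun a ha => pow_nonneg (h a ha) _) ha0

theorem LF.sum {α : Type*} (s : Finset α) {F : α → Cfg → ℝ} (h : ∀ a ∈ s, LF (F a)) :
    LF fun ω => ∑ a ∈ s, F a ω := by
  classical
  induction s using Finset.induction_on with
  | empty => exact ⟨∅, fun _ _ _ => rfl⟩
  | insert a s ha ih =>
    simp only [sum_insert ha]
    exact (h a (mem_insert_self _ _)).op (ih fun b hb => h b (mem_insert_of_mem hb))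
      fun a b => a + b

section ef

variable {K : Finset (ℤ × ℤ)} {σ : Cfg} {P : Measure Cfg}

theorem EF_sum [IsFiniteMeasure P] (hg : ∀ᵐ ω ∂P, Good ω) {α : Type*} (s : Finset α)
    {F : α → Cfg → ℝ} (h : ∀ a ∈ s, LF (F a)) :
    EF P K σ (fun ω => ∑ a ∈ s, F a ω) = ∑ a ∈ s, EF P K σ (F a) := by
  classical
  induction s using Finset.induction_on with
  | empty =>
    simp only [sum_empty]
    unfold EF
    simp
  | insert a s ha ih =>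
    simp only [sum_insert ha]
    have h1 := EF_lin (P := P) (K := K) (κ := σ) hg (h a (mem_insert_self _ _))
      (LF.sum s fun b hb => h b (mem_insert_of_mem hb)) 1 1
    simp only [one_mul] at h1
    rw [h1, ih fun b hb => h b (mem_insert_of_mem hb)]

end ef

theorem MajA.mono {A : Finset (ℤ × ℤ)} {d d' : ℝ} {ω : Cfg} {N : ℕ} (h : MajA A d ω N)
    (hd : d ≤ d') : MajA A d' ω N := fun 𝓕 h1 h2 h3 => h 𝓕 h1 h2 fun γ hγ => by
  obtain ⟨h4, e1, he1, e2, he2, h5⟩ := h3 γ hγ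
  exact ⟨h4, e1, he1, e2, he2, hd.trans h5⟩

/-- Majorants of a covering. -/
theorem MajA.cover {α : Type*} {Z : Finset (ℤ × ℤ)} {A : α → Finset (ℤ × ℤ)} {s : Finset α}
    {d : ℝ} {ω : Cfg} {N : α → ℕ} (hZ : ∀ v ∈ Z, ∃ a ∈ s, v ∈ A a)
    (h : ∀ a ∈ s, MajA (A a) d ω (N a)) : MajA Z d ω (∑ a ∈ s, N a) := by
  classical
  intro 𝓕 h1 h2 h3
  have hsub : 𝓕 ⊆ s.biUnion fun a => 𝓕.filter fun γ => ∃ e ∈ γ, hdv e ∈ A a := by
    intro γ hγ
    obtain ⟨⟨e, he, heZ⟩, -⟩ := h3 γ hγ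
    obtain ⟨a, ha, hea⟩ := hZ _ heZ
    exact mem_biUnion.2 ⟨a, ha, mem_filter.2 ⟨hγ, e, he, hea⟩⟩
  refine (card_le_card hsub).trans (card_biUnion_le.trans (sum_le_sum fun a ha => ?_))
  refine h a ha _ (fun γ hγ => h1 γ (mem_filter.1 hγ).1)
    (fun γ hγ γ' hγ' => h2 γ (mem_filter.1 hγ).1 γ' (mem_filter.1 hγ').1) fun γ hγ => ?_
  obtain ⟨h4, h5⟩ := mem_filter.1 hγ
  exact ⟨h5, (h3 γ h4).2⟩

/-- The boxes around the points of a grid cover. -/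
theorem grid_cover {h : ℤ} (hh0 : 0 < h) {Gn : ℕ} {v : ℤ × ℤ} (hv : v ∈ Bq 0 (h * Gn)) :
    ∃ g ∈ Finset.Icc (-(Gn : ℤ)) Gn ×ˢ Finset.Icc (-(Gn : ℤ)) Gn,
      v ∈ Bq ((h * g.1, h * g.2) : ℤ × ℤ) h := by
  rw [mem_Bq] at hv
  simp only [Prod.fst_zero, Prod.snd_zero, zero_sub, zero_add] at hv
  have hg1 : h * (v.1 / h) ≤ v.1 := Int.mul_ediv_self_le hh0.ne'
  have hg2 : v.1 < h * (v.1 / h) + h := Int.lt_mul_ediv_self_add hh0
  have hg3 : h * (v.2 / h) ≤ v.2 := Int.mul_ediv_self_le hh0.ne'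
  have hg4 : v.2 < h * (v.2 / h) + h := Int.lt_mul_ediv_self_add hh0
  refine ⟨(v.1 / h, v.2 / h), ?_, ?_⟩
  · rw [mem_product, Finset.mem_Icc, Finset.mem_Icc]
    refine ⟨⟨?_, ?_⟩, ?_, ?_⟩
    · show -(Gn : ℤ) ≤ v.1 / h
      rw [Int.le_ediv_iff_mul_le hh0]
      nlinarith
    · show v.1 / h ≤ Gn
      have : v.1 / h < Gn := by
        rw [Int.ediv_lt_iff_lt_mul hh0]
        nlinarith
      exact this.le
    · show -(Gn : ℤ) ≤ v.2 / h
      rw [Int.le_ediv_iff_mul_le hh0]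
      nlinarith
    · show v.2 / h ≤ Gn
      have : v.2 / h < Gn := by
        rw [Int.ediv_lt_iff_lt_mul hh0]
        nlinarith
      exact this.le
  · rw [mem_Bq]
    show h * (v.1 / h) - h ≤ v.1 ∧ v.1 < h * (v.1 / h) + h ∧ h * (v.2 / h) - h ≤ v.2 ∧
      v.2 < h * (v.2 / h) + h
    omega

section comb

variable {K : Finset (ℤ × ℤ)} {σ : Cfg} {P : Measure Cfg} [IsFiniteMeasure P] {β : Type*}

/-- The pointwise bound. -/
theorem comb_pt {A : ℝ} (hA1 : 1 ≤ A) (J : Finset β) (N : β → ℕ) (z : ℝ) {m₀ : ℕ}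
    (hm : J.card + 1 ≤ m₀) : A ^ (∑ j ∈ J, N j) * Real.exp (-z) ≤
      Real.exp (-(((J.card + 1 : ℕ) : ℝ) * z)) +
        ∑ j ∈ J, Real.exp (m₀ * Real.log A * (N j : ℝ)) := by
  classical
  have hlA : 0 ≤ Real.log A := Real.log_nonneg hA1
  set J' : Finset (Option β) := Finset.insertNone J with hJ'
  have hc : J'.card = J.card + 1 := by rw [hJ', Finset.card_insertNone]
  set a : Option β → ℝ := fun j => j.elim (Real.exp (-z)) fun j => A ^ N j with ha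
  have ha0 : ∀ j, 0 ≤ a j := by
    rintro (_ | j)
    · exact (Real.exp_pos _).le
    · exact pow_nonneg (by linarith) _
  have e1 : A ^ (∑ j ∈ J, N j) * Real.exp (-z) = ∏ j ∈ J', a j := by
    rw [hJ', Finset.prod_insertNone]
    show _ = Real.exp (-z) * ∏ j ∈ J, A ^ N j
    rw [Finset.prod_pow_eq_pow_sum, mul_comm]
  rw [e1]
  refine (prod_le_pow J' (Finset.card_pos.1 (by omega)) _ fun j _ => ha0 j).trans ?_
  rw [hc]
  have e0 : ∑ j ∈ J', a j ^ (J.card + 1) = Real.exp (-z) ^ (J.card + 1) +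
      ∑ j ∈ J, (A ^ N j) ^ (J.card + 1) := by
    rw [hJ', Finset.sum_insertNone]
    rfl
  rw [e0]
  refine add_le_add (le_of_eq ?_) (sum_le_sum fun j _ => ?_)
  · rw [← Real.exp_nat_mul]
    congr 1
    ring
  · have e2 : (A ^ N j) ^ (J.card + 1) =
        Real.exp (((N j * (J.card + 1) : ℕ) : ℝ) * Real.log A) := by
      rw [Real.exp_nat_mul, Real.exp_log (by linarith), pow_mul]
    rw [e2]
    refine Real.exp_le_exp.2 ?_
    have h2 : ((N j * (J.card + 1) : ℕ) : ℝ) ≤ (N j : ℝ) * m₀ := by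
      have : N j * (J.card + 1) ≤ N j * m₀ := Nat.mul_le_mul_left _ hm
      exact_mod_cast this
    calc ((N j * (J.card + 1) : ℕ) : ℝ) * Real.log A ≤ (N j : ℝ) * m₀ * Real.log A :=
          mul_le_mul_of_nonneg_right h2 hlA
      _ = _ := by ring

/-- **Combination** of the moments. -/
theorem EF_comb (hg : ∀ᵐ ω ∂P, Good ω) {A : ℝ} (hA1 : 1 ≤ A) {T : Cfg → ℝ} (hT : LF T)
    (hT0 : ∀ ω, 0 ≤ T ω) (J : Finset β) (N : β → Cfg → ℕ)
    (hN : ∀ j, ∃ U : Finset (ℤ × ℤ), ∀ ω ω' : Cfg, (∀ v ∈ U, ω v = ω' v) → N j ω = N j ω')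
    {z : Cfg → ℝ} (hz : ∀ t : ℝ, 0 ≤ t → t ≤ (J.card + 1 : ℕ) → LF fun ω => Real.exp (-(t * z ω)))
    {m₀ : ℕ} (hm : J.card + 1 ≤ m₀) {C1 C2 E : ℝ} (hC1 : 0 ≤ C1) (hC2 : 0 ≤ C2) (hE : 0 ≤ E)
    (h1 : ∀ j, EF P K σ (fun ω => T ω * Real.exp (m₀ * Real.log A * (N j ω : ℝ))) ≤ C1 * E)
    (h2 : EF P K σ (fun ω => T ω * Real.exp (-(((J.card + 1 : ℕ) : ℝ) * z ω))) ≤ C2 * E) :
    LF (fun ω => A ^ (∑ j ∈ J, N j ω) * Real.exp (-(z ω))) ∧
    EF P K σ (fun ω => T ω * (A ^ (∑ j ∈ J, N j ω) * Real.exp (-(z ω)))) ≤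
      m₀ * (C1 + C2) * E := by
  classical
  have hz1 : LF fun ω => Real.exp (-(z ω)) := by
    have := hz 1 (by norm_num) (by push_cast; linarith [(Nat.cast_nonneg J.card : (0 : ℝ) ≤ _)])
    simpa only [one_mul] using this
  have hzJ := hz ((J.card + 1 : ℕ) : ℝ) (by positivity) le_rfl
  have hNl : LF (fun ω => A ^ (∑ j ∈ J, N j ω) * Real.exp (-(z ω))) := by
    choose U hU using hN
    refine LF.mul (LF.comp (N := fun ω => ∑ j ∈ J, N j ω) (B := J.biUnion U) (fun ω ω' hw => ?_)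
      fun k : ℕ => A ^ k) hz1
    exact sum_congr rfl fun j hj => hU j ω ω' fun v hv => hw v (mem_biUnion.2 ⟨j, hj, hv⟩)
  refine ⟨hNl, ?_⟩
  have hl1 : LF (fun ω => T ω * Real.exp (-(((J.card + 1 : ℕ) : ℝ) * z ω))) := hT.mul hzJ
  have hl2 : ∀ j, LF (fun ω => T ω * Real.exp (m₀ * Real.log A * (N j ω : ℝ))) := fun j => by
    obtain ⟨U, hU⟩ := hN j
    exact hT.mul (LF.comp (N := N j) hU fun k : ℕ => Real.exp (m₀ * Real.log A * k))
  have hl3 : LF (fun ω => ∑ j ∈ J, T ω * Real.exp (m₀ * Real.log A * (N j ω : ℝ))) :=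
    LF.sum J fun j _ => hl2 j
  have step : EF P K σ (fun ω => T ω * (A ^ (∑ j ∈ J, N j ω) * Real.exp (-(z ω)))) ≤
      EF P K σ (fun ω => 1 * (T ω * Real.exp (-(((J.card + 1 : ℕ) : ℝ) * z ω))) +
        1 * ∑ j ∈ J, T ω * Real.exp (m₀ * Real.log A * (N j ω : ℝ))) := by
    refine EF_le hg (hT.mul hNl) (hl1.op hl3 fun a b => 1 * a + 1 * b) fun ω _ _ => ?_
    rw [one_mul, one_mul, ← mul_sum, ← mul_add]
    exact mul_le_mul_of_nonneg_left (comb_pt hA1 J (fun j => N j ω) (z ω) hm) (hT0 ω)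
  rw [EF_lin hg hl1 hl3, EF_sum hg J fun j _ => hl2 j, one_mul, one_mul] at step
  refine step.trans ?_
  have h3 : ∑ j ∈ J, EF P K σ (fun ω => T ω * Real.exp (m₀ * Real.log A * (N j ω : ℝ))) ≤
      (J.card : ℝ) * (C1 * E) := by
    refine (sum_le_card_nsmul J _ _ fun j _ => h1 j).trans (le_of_eq ?_)
    rw [nsmul_eq_mul]
  have hm' : (J.card : ℝ) + 1 ≤ m₀ := by exact_mod_cast hm
  have hc0 : (0 : ℝ) ≤ J.card := Nat.cast_nonneg _
  have h5 : (J.card : ℝ) * (C1 * E) ≤ m₀ * (C1 * E) :=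
    mul_le_mul_of_nonneg_right (by linarith) (by positivity)
  have h6 : C2 * E ≤ m₀ * (C2 * E) := le_mul_of_one_le_left (by positivity) (by linarith)
  calc _ ≤ C2 * E + (J.card : ℝ) * (C1 * E) := add_le_add h2 h3
    _ ≤ m₀ * (C2 * E) + m₀ * (C1 * E) := add_le_add h6 h5
    _ = _ := by ring

end comb

variable {θ : ℝ}

/-- Scaling of the admissibility of a row. -/
theorem ok_one {κ : ℝ} {n : ℕ} {r : Row} (hr : r.Ok θ κ n) (hκ : 0 ≤ κ * n) :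
    r.Ok θ 1 ⌊κ * n⌋₊ := by
  have h : (1 : ℝ) * (⌊κ * n⌋₊ : ℕ) ≤ κ * n := by
    rw [one_mul]
    exact Nat.floor_le hκ
  exact { len := h.trans hr.len
          s := hr.s
          kind := by
            rcases hr.kind with h1 | ⟨h1, h2, h3⟩
            · exact Or.inl h1
            · exact Or.inr ⟨h1, h.trans h2, by linarith⟩ }

open Classical in
/-- The zones. -/
noncomputable def AJ {ι : Type} (r : ι → Row) (h ρ : ℤ) (Ord : ℤ × ℤ → Prop) :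
    (ℤ × ℤ) ⊕ (ι × Fin 3) → Finset (ℤ × ℤ) := Sum.elim
  (fun g => if Ord g then Bq ((h * g.1, h * g.2) : ℤ × ℤ) h else ∅)
  (fun p => if Sp (r p.1) p.2 then Bq (ctr (r p.1) p.2) (2 * ρ) else ∅)

theorem majA_empty {d : ℝ} {ω : Cfg} (N : ℕ) : MajA ∅ d ω N := fun 𝓕 _ _ h3 => by
  rcases 𝓕.eq_empty_or_nonempty with rfl | ⟨γ, hγ⟩
  · simp
  · obtain ⟨⟨e, -, he⟩, -⟩ := h3 γ hγ
    exact absurd he (Finset.notMem_empty _)

/-- The zones cover. -/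
theorem AJ_cover {ι : Type} [Fintype ι] {r : ι → Row} {h ρ : ℤ} {d : ℝ} (hh0 : 0 < h)
    (hd : 2 * (h : ℝ) + d < ρ) {Gn : ℕ}
    {v : ℤ × ℤ} (hv : v ∈ Bq 0 (h * Gn)) :
    ∃ j ∈ (Finset.Icc (-(Gn : ℤ)) Gn ×ˢ Finset.Icc (-(Gn : ℤ)) Gn).disjSum
        (univ : Finset (ι × Fin 3)),
      v ∈ AJ r h ρ (fun g => ∀ p : ι × Fin 3, Sp (r p.1) p.2 →
        (ρ + h + d : ℝ) < (nm (ctr (r p.1) p.2 - (h * g.1, h * g.2)) : ℝ)) j := by
  classical
  obtain ⟨g, hgg, hvg⟩ := grid_cover hh0 hv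
  by_cases hO : ∀ p : ι × Fin 3, Sp (r p.1) p.2 →
        (ρ + h + d : ℝ) < (nm (ctr (r p.1) p.2 - (h * g.1, h * g.2)) : ℝ)
  · refine ⟨Sum.inl g, Finset.inl_mem_disjSum.2 hgg, ?_⟩
    unfold AJ
    rw [Sum.elim_inl, if_pos hO]
    exact hvg
  · push Not at hO
    obtain ⟨p, hp1, hp2⟩ := hO
    refine ⟨Sum.inr p, Finset.inr_mem_disjSum.2 (mem_univ p), ?_⟩
    unfold AJ
    rw [Sum.elim_inr, if_pos hp1]
    refine Bq_of_nm ?_
    have h2 : (nm (v - (h * g.1, h * g.2)) : ℝ) ≤ h := by exact_mod_cast nm_of_Bq hvg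
    have h3 : (nm (v - ctr (r p.1) p.2) : ℝ) ≤ nm (v - (h * g.1, h * g.2)) +
        nm (((h * g.1, h * g.2) : ℤ × ℤ) - ctr (r p.1) p.2) := by
      exact_mod_cast nm_sub_le v _ _
    rw [nm_comm ((h * g.1, h * g.2) : ℤ × ℤ)] at h3
    have h4 : (nm (v - ctr (r p.1) p.2) : ℝ) < ((2 * ρ : ℤ) : ℝ) := by
      push_cast
      linarith
    exact_mod_cast h4

/-- **Moments of the majorant.** -/
theorem EF_maj (h0 : 0 < θ) (h1 : θ ≤ Real.pi / 3) (hR : RSW (2 * Real.cos θ)) (hb : P1b θ)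
    {P : Measure Cfg} (hP : IsLim (2 * Real.cos θ) P) (hg : ∀ᵐ ω ∂P, Good ω) {κ κ' R B A : ℝ}
    (M : ℕ) (hκ : 0 < κ) (hκ' : 0 < κ') (hκκ : κ' ≤ κ / 100) (hA1 : 1 ≤ A) :
    ∃ C : ℝ, 0 < C ∧ ∀ᶠ n : ℕ in atTop, ∀ (ι : Type) [Fintype ι] (r : ι → Row) (c : Ed → ℝ),
      (Function.support c).Finite → Fintype.card ι ≤ M → (rowC θ r c).Adm κ R B n →
      (∀ i, (r i).Ok θ κ n) → ∀ σ : Cfg, Frz r σ → ∃ (N : Cfg → ℕ) (Z : Finset (ℤ × ℤ)),
        LF (fun ω => A ^ N ω * Real.exp (-(Real.tan θ * Sm (dv c) (κ' * n) ω))) ∧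
        (∀ v : ℤ × ℤ, (nm v : ℝ) ≤ (R + 1) * n → v ∈ Z) ∧
        (∀ ω, Good ω → MajA Z (κ' * n) ω (N ω)) ∧
        EF P (uI r) σ (fun ω => PT θ r ⌊κ * n / 16⌋ ω *
            (A ^ N ω * Real.exp (-(Real.tan θ * Sm (dv c) (κ' * n) ω)))) ≤
          C * EF P (uI r) σ (PT θ r ⌊κ * n / 16⌋) := by
  classical
  have hPp : IsProbabilityMeasure P := hP.1
  -- the grid
  obtain ⟨Gn, hGn⟩ : ∃ Gn : ℕ, 200 * (|R| + 4) / κ + 2 ≤ (Gn : ℝ) := exists_nat_ge _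
  obtain ⟨grid, hgrid⟩ : ∃ grid : Finset (ℤ × ℤ), grid =
    Finset.Icc (-(Gn : ℤ)) Gn ×ˢ Finset.Icc (-(Gn : ℤ)) Gn := ⟨_, rfl⟩
  obtain ⟨m₀, hm₀⟩ : ∃ m₀ : ℕ, m₀ = grid.card + 3 * M + 1 := ⟨_, rfl⟩
  obtain ⟨C1, n1, hC1, hn1, hzone⟩ := EF_zone h0 h1 hR hP hg (m₀ * Real.log A) hκ hκ' hκκ
  obtain ⟨C2, n2, hC2, hn2, hflow⟩ := EF_flow (R := R) (B := B) h0 h1 hR hP hg (m₀ : ℝ) hκ hκ' hκκ
    (by positivity)
  obtain ⟨C3, ρ3, hC3, hsp⟩ := hb (κ' * 16 / κ) (m₀ * Real.log A) (by positivity)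
  have hm1 : (0 : ℝ) < max (max C1 C3) 1 := lt_of_lt_of_le one_pos (le_max_right _ _)
  refine ⟨m₀ * (max (max C1 C3) 1 + C2), by rw [hm₀]; positivity, ?_⟩
  have hlim : Tendsto (fun n : ℕ => κ * (n : ℝ)) atTop atTop :=
    tendsto_natCast_atTop_atTop.const_mul_atTop hκ
  have hlim' : Tendsto (fun n : ℕ => (n : ℝ)) atTop atTop := tendsto_natCast_atTop_atTop
  filter_upwards [hlim.eventually_ge_atTop 1000, hlim.eventually_ge_atTop (16 * (ρ3 + 1)),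
    hlim'.eventually_ge_atTop n1, hlim'.eventually_ge_atTop n2, hlim'.eventually_ge_atTop 1]
    with n hn hnρ hnn1 hnn2 hnn
  intro ι _ r c hc hM hA hr σ hσ
  obtain ⟨ρ, hρ⟩ : ∃ ρ : ℤ, ρ = ⌊κ * n / 16⌋ := ⟨_, rfl⟩
  obtain ⟨h, hh⟩ : ∃ h : ℤ, h = ⌊κ * n / 100⌋ := ⟨_, rfl⟩
  rw [← hρ]
  have hρ1 : (ρ : ℝ) ≤ κ * n / 16 := by rw [hρ]; exact Int.floor_le _
  have hρ2 : κ * n / 16 - 1 < ρ := by rw [hρ]; exact Int.sub_one_lt_floor _
  have hh1 : (h : ℝ) ≤ κ * n / 100 := by rw [hh]; exact Int.floor_le _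
  have hh2 : κ * n / 100 - 1 < h := by rw [hh]; exact Int.sub_one_lt_floor _
  have hρpos : 1 ≤ ρ := by
    have : (0 : ℝ) < ρ := by linarith
    have : 0 < ρ := by exact_mod_cast this
    omega
  have hhpos : 1 ≤ h := by
    have : (0 : ℝ) < h := by linarith
    have : 0 < h := by exact_mod_cast this
    omega
  have hκ'n : κ' * n ≤ κ * n / 100 := by
    have := mul_le_mul_of_nonneg_right hκκ (by linarith : (0 : ℝ) ≤ n)
    linarith
  have hκ'n0 : 0 ≤ κ' * n := by positivity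
  obtain ⟨E, hE⟩ : ∃ E, E = EF P (uI r) σ (PT θ r ρ) := ⟨_, rfl⟩
  have hE0 : 0 ≤ E := by rw [hE]; exact EF_nonneg fun ω => PT_nonneg h0 h1 r ρ ω
  rw [← hE]
  -- the zones
  have hz : ∀ j : (ℤ × ℤ) ⊕ (ι × Fin 3), ∃ N : Cfg → ℕ,
      (∃ U : Finset (ℤ × ℤ), ∀ ω ω' : Cfg, (∀ v ∈ U, ω v = ω' v) → N ω = N ω') ∧
      (∀ ω, Good ω → MajA (AJ r h ρ (fun g => ∀ p : ι × Fin 3, Sp (r p.1) p.2 →
        (ρ + h + κ' * n : ℝ) < (nm (ctr (r p.1) p.2 - (h * g.1, h * g.2)) : ℝ)) j)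
        (κ' * n) ω (N ω)) ∧
      EF P (uI r) σ (fun ω => PT θ r ρ ω * Real.exp (m₀ * Real.log A * (N ω : ℝ))) ≤
        max (max C1 C3) 1 * E := by
    have hzero : EF P (uI r) σ (fun ω => PT θ r ρ ω *
        Real.exp (m₀ * Real.log A * (((fun _ => 0 : Cfg → ℕ) ω : ℕ) : ℝ))) ≤
        max (max C1 C3) 1 * E := by
      simp only [Nat.cast_zero, mul_zero, Real.exp_zero, mul_one]
      rw [← hE]
      calc E = 1 * E := (one_mul _).symm
        _ ≤ _ := mul_le_mul_of_nonneg_right (le_max_right _ _) hE0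
    rintro (g | p)
    · by_cases hg' : ∀ p : ι × Fin 3, Sp (r p.1) p.2 →
        (ρ + h + κ' * n : ℝ) < (nm (ctr (r p.1) p.2 - (h * g.1, h * g.2)) : ℝ)
      · obtain ⟨N, hN1, hN2, hN3⟩ := hzone n hnn1 hA hr hσ (h * g.1, h * g.2) h ρ hh1 hhpos
          hρpos hg'
        rw [← hE] at hN3
        refine ⟨N, hN1, fun ω _ => ?_, hN3.trans (mul_le_mul_of_nonneg_right
          ((le_max_left _ _).trans (le_max_left _ _)) hE0)⟩
        unfold AJ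
        rw [Sum.elim_inl, if_pos hg']
        exact hN2 ω
      · refine ⟨fun _ => 0, ⟨∅, fun _ _ _ => rfl⟩, fun ω _ => ?_, hzero⟩
        unfold AJ
        rw [Sum.elim_inl, if_neg hg']
        exact majA_empty _
    · by_cases hp' : Sp (r p.1) p.2
      · have h8 : 8 * ρ ≤ ((⌊κ * n⌋₊ : ℕ) : ℤ) := by
          have h9 : κ * n - 1 < (⌊κ * n⌋₊ : ℕ) := by
            have := Nat.lt_floor_add_one (κ * n)
            linarith
          have h10 : ((8 * ρ : ℤ) : ℝ) < ((⌊κ * n⌋₊ : ℕ) : ℝ) := by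
            push_cast
            linarith
          have h11 : (8 * ρ : ℤ) < ((⌊κ * n⌋₊ : ℕ) : ℤ) := by exact_mod_cast h10
          exact h11.le
        obtain ⟨N, hN1, hN2, hN3⟩ := hsp (r p.1) ⌊κ * n⌋₊ p.2 ρ
          (ok_one (hr p.1) (by linarith)) hp' (by linarith) h8
        have hN4 := EF_sp h0 h1 hP hg hA hr (by linarith) hσ hp' hρpos hρ1 hN1 hN3
        rw [← hE] at hN4
        refine ⟨N, ⟨_, hN1⟩, fun ω hω => ?_, hN4.trans (mul_le_mul_of_nonneg_right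
          ((le_max_right _ _).trans (le_max_left _ _)) hE0)⟩
        unfold AJ
        rw [Sum.elim_inr, if_pos hp']
        refine MajA.mono (hN2 ω hω) ?_
        calc κ' * 16 / κ * ρ ≤ κ' * 16 / κ * (κ * n / 16) :=
              mul_le_mul_of_nonneg_left hρ1 (by positivity)
          _ = κ' * n := by field_simp
      · refine ⟨fun _ => 0, ⟨∅, fun _ _ _ => rfl⟩, fun ω _ => ?_, hzero⟩
        unfold AJ
        rw [Sum.elim_inr, if_neg hp']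
        exact majA_empty _
  choose N hN1 hN2 hN3 using hz
  -- the index set
  obtain ⟨J, hJ⟩ : ∃ J : Finset ((ℤ × ℤ) ⊕ (ι × Fin 3)), J = grid.disjSum univ := ⟨_, rfl⟩
  have hJc : J.card + 1 ≤ m₀ := by
    rw [hJ, Finset.card_disjSum, Finset.card_univ, Fintype.card_prod, Fintype.card_fin, hm₀]
    omega
  have hJc' : ((J.card + 1 : ℕ) : ℝ) ≤ m₀ := by exact_mod_cast hJc
  have hfl : ∀ t : ℝ, 0 ≤ t → t ≤ (m₀ : ℝ) →
      LF (fun ω => Real.exp (-(t * (Real.tan θ * Sm (dv c) (κ' * n) ω)))) ∧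
      EF P (uI r) σ (fun ω => PT θ r ρ ω *
          Real.exp (-(t * (Real.tan θ * Sm (dv c) (κ' * n) ω)))) ≤ C2 * E := fun t ht ht' => by
    rw [hE]
    exact hflow n hnn2 hc hA hr σ ρ hρ1 t ht ht'
  obtain ⟨k1, k2⟩ := EF_comb hg hA1 (PT_LF θ r ρ) (fun ω => PT_nonneg h0 h1 r ρ ω) J N hN1
    (z := fun ω => Real.tan θ * Sm (dv c) (κ' * n) ω)
    (fun t ht ht' => (hfl t ht (ht'.trans hJc')).1) hJc hm1.le hC2.le hE0 hN3
    (hfl _ (by positivity) hJc').2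
  refine ⟨fun ω => ∑ j ∈ J, N j ω, Bq 0 (h * Gn), k1, fun v hv => ?_, fun ω hω => ?_, k2⟩
  · refine Bq_of_nm ?_
    have h2 : (κ * n / 200) * (200 * (|R| + 4) / κ) = (|R| + 4) * n := by
      field_simp
    have h3 : (κ * n / 200 : ℝ) ≤ h := by linarith
    have h4 : (|R| + 4) * n ≤ h * (200 * (|R| + 4) / κ) := by
      rw [← h2]
      exact mul_le_mul_of_nonneg_right h3 (by positivity)
    have h5 : (h : ℝ) * (200 * (|R| + 4) / κ) ≤ h * Gn :=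
      mul_le_mul_of_nonneg_left (by linarith) (by linarith)
    have h6 : (R + 1) * n ≤ (|R| + 1) * n :=
      mul_le_mul_of_nonneg_right (by linarith [le_abs_self R]) (by linarith)
    have h7 : (nm (v - 0) : ℝ) < ((h * Gn : ℤ) : ℝ) := by
      rw [sub_zero]
      push_cast
      nlinarith
    exact_mod_cast h7
  · refine MajA.cover (fun v hv => ?_) fun j _ => hN2 j ω hω
    rw [hJ, hgrid]
    exact AJ_cover (by omega) (by linarith) hv

end Vale.Agent.P167.H945.Q
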