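import Vale.Agent.P167.H945.Q.HLift

/-!
# P167, general `q`, Q-NORM: moments of the number of the large strands in ordinary zones
-/

namespace Vale.Agent.P167.H945.Q

open Finset MeasureTheory Filter
open Vale.Agent.P167.BR
open Vale.Agent.P167.FK
open Vale.Agent.P167.FKA (Loc Ind Loc.ind Ex_mono Ex_congr)
open Vale.Agent.P167.H519 (IsLim)
open Vale.Agent.P167.H825 (dv epos)
open Vale.Agent.P167.H825.Q (Row)
open Vale.Agent.P167.H166 (bxx mem_bxx)
open Vale.Agent.P167.H680.T (rowC uI mem_uI)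
open Vale.Agent.P167.H506.Q (EF fz LF EF_tr EF_le EF_lin oneC_row)
open Vale.Agent.P167.H562.QM (MajA OneC Nr macro_B oneC_sub)

variable {θ : ℝ}

theorem cos_ge (h0 : 0 < θ) (h1 : θ ≤ Real.pi / 3) : 1 ≤ 2 * Real.cos θ := by
  have := Real.cos_le_cos_of_nonneg_of_le_pi h0.le (by linarith [Real.pi_pos]) h1
  rw [Real.cos_pi_div_three] at this
  linarith

/-- A factor of a centre does not depend on the squares off its box. -/
theorem Tc_off {ι : Type} [Fintype ι] {r : ι → Row} {ρ : ℤ} {p : ι × Fin 3} {ω ω' : Cfg}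
    (h : Sp (r p.1) p.2 → ∀ v ∈ Bq (ctr (r p.1) p.2) ρ, ω v = ω' v) :
    Tc θ (uI r) (r p.1) p.2 ρ ω = Tc θ (uI r) (r p.1) p.2 ρ ω' := by
  by_cases hp : Sp (r p.1) p.2
  · exact Tc_loc _ _ _ _ _ _ (h hp)
  · rw [Tc_plain hp, Tc_plain hp]

/-- **Moments in an ordinary zone.** -/
theorem EF_zone (h0 : 0 < θ) (h1 : θ ≤ Real.pi / 3) (hR : RSW (2 * Real.cos θ)) {P : Measure Cfg}
    (hP : IsLim (2 * Real.cos θ) P) (hg : ∀ᵐ ω ∂P, Good ω) {κ κ' : ℝ} (s : ℝ) (hκ : 0 < κ)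
    (hκ' : 0 < κ') (hκκ : κ' ≤ κ / 100) :
    ∃ C n₀ : ℝ, 0 < C ∧ 0 < n₀ ∧ ∀ n : ℕ, n₀ ≤ n → ∀ {ι : Type} [Fintype ι] {r : ι → Row}
      {c : Ed → ℝ} {R B : ℝ}, (rowC θ r c).Adm κ R B n → (∀ i, (r i).Ok θ κ n) →
      ∀ {σ : Cfg}, Frz r σ → ∀ (y : ℤ × ℤ) (h ρ : ℤ), (h : ℝ) ≤ κ * n / 100 → 1 ≤ h → 1 ≤ ρ →
      (∀ p : ι × Fin 3, Sp (r p.1) p.2 →
        (ρ + h + κ' * n : ℝ) < (nm (ctr (r p.1) p.2 - y) : ℝ)) →
      ∃ N : Cfg → ℕ, (∃ U : Finset (ℤ × ℤ), ∀ ω ω' : Cfg, (∀ v ∈ U, ω v = ω' v) → N ω = N ω') ∧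
        (∀ ω, MajA (Bq y h) (κ' * n) ω (N ω)) ∧
        EF P (uI r) σ (fun ω => PT θ r ρ ω * Real.exp (s * (N ω : ℝ))) ≤
          C * EF P (uI r) σ (PT θ r ρ) := by
  have hQ := cos_ge h0 h1
  obtain ⟨ε, C, ρ0, hε, hC, hρ0, key⟩ := macro_B hQ hR κ' κ s 0 hκ' hκ.le
  refine ⟨C, max ρ0 1, hC, by positivity, fun n hn ι _ r c R B hA hr σ hσ y h ρ hh hh1 hρ hy => ?_⟩
  have hn0 : ρ0 ≤ (n : ℝ) := (le_max_left _ _).trans hn
  have hn1 : 1 ≤ (n : ℝ) := (le_max_right _ _).trans hn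
  have hκn : 0 < κ * n := by positivity
  obtain ⟨N, hN1, hN2, hN3⟩ := key n hn0 y (Bq y h) (fun v hv => by
    have h2 : (nm (v - y) : ℝ) ≤ h := by exact_mod_cast nm_of_Bq hv
    linarith) Fin.elim0
  -- the zone
  have hnear : ∀ v, Nr (Bq y h) (κ' * n) v → (nm (v - y) : ℝ) ≤ h + κ' * n := by
    rintro v ⟨u, hu, hv⟩
    have h2 : (nm (u - y) : ℝ) ≤ h := by exact_mod_cast nm_of_Bq hu
    have h3 : (nm (v - y) : ℝ) ≤ nm (v - u) + nm (u - y) := by exact_mod_cast nm_sub_le v u y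
    linarith
  set m : ℤ := ⌈(h : ℝ) + κ' * n⌉ + 1 with hm
  have hU : ∀ v, Nr (Bq y h) (κ' * n) v → v ∈ Bq y m := fun v hv => by
    refine Bq_of_nm ?_
    have h2 := hnear v hv
    have h3 : (nm (v - y) : ℝ) ≤ ⌈(h : ℝ) + κ' * n⌉ := h2.trans (Int.le_ceil _)
    have h4 : nm (v - y) ≤ ⌈(h : ℝ) + κ' * n⌉ := by exact_mod_cast h3
    omega
  have hNl : ∀ ω ω' : Cfg, (∀ v ∈ Bq y m, ω v = ω' v) → N ω = N ω' := fun ω ω' hw =>
    hN1 ω ω' fun v hv _ => hw v (hU v hv)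
  refine ⟨N, ⟨_, hNl⟩, hN2, ?_⟩
  obtain ⟨R₀, -, hR₀⟩ := H519.exists_Bq (Bq y m)
  have := EF_tr hQ hP hg (uI r) σ
    ((PT_LF θ r ρ).mul (LF.comp (N := N) hNl fun n : ℕ => Real.exp (s * n)))
    (PT_LF θ r ρ) (a := 1) (b := C) R₀ fun D η hD _ hη hk => by
      rw [one_mul]
      refine hN3 (D \ uI r) η hη (fun z a ha hz => ?_) _ (fun ω => PT_nonneg h0 h1 r ρ ω) ?_
      · -- the box sees at most one row
        by_cases hex : ∃ v₀ ∈ bxx z a, v₀ ∈ uI r
        · obtain ⟨v₀, hv₀, hv₀'⟩ := hex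
          obtain ⟨i, hi⟩ := mem_uI.1 hv₀'
          refine oneC_row (r := r i) (fun v hv => ?_) fun v hv => ?_
          · constructor
            · intro hvD
              have hv1 : v ∈ D := hD (hR₀ (hU v (hz v hv)))
              have hv2 : v ∈ uI r := by
                by_contra hne
                exact hvD (Finset.mem_sdiff.2 ⟨hv1, hne⟩)
              obtain ⟨j, hj⟩ := mem_uI.1 hv2
              by_cases hij : j = i
              · rw [← hij]
                exact hj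
              · exfalso
                have h2 := adm_sep hA hij hj hi
                have h3 := hnear v (hz v hv)
                have h4 := hnear v₀ (hz v₀ hv₀)
                have h5 : (nm (v - v₀) : ℝ) ≤ nm (v - y) + nm (y - v₀) := by
                  exact_mod_cast nm_sub_le v y v₀
                rw [nm_comm y v₀] at h5
                have h6 : κ' * n ≤ κ * n / 100 := by
                  have := mul_le_mul_of_nonneg_right hκκ (by linarith : (0 : ℝ) ≤ n)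
                  linarith
                linarith
            · intro hv1 hv2
              exact (Finset.mem_sdiff.1 hv2).2 (mem_uI.2 ⟨i, hv1⟩)
          · rw [hk v (mem_uI.2 ⟨i, hv⟩)]
            exact hσ i v hv
        · push Not at hex
          exact oneC_sub fun v hv => Finset.mem_sdiff.2 ⟨hD (hR₀ (hU v (hz v hv))), hex v hv⟩
      · intro ω ω' hw
        refine prod_congr rfl fun p _ => Tc_off fun hp v hv => hw v fun hv' => ?_
        have h2 := hnear v hv'.2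
        have h3 : (nm (v - ctr (r p.1) p.2) : ℝ) ≤ ρ := by exact_mod_cast nm_of_Bq hv
        have h4 : (nm (ctr (r p.1) p.2 - y) : ℝ) ≤ nm (ctr (r p.1) p.2 - v) + nm (v - y) := by
          exact_mod_cast nm_sub_le _ v y
        rw [nm_comm _ v] at h4
        have h5 := hy p hp
        linarith
  rwa [one_mul] at this

end Vale.Agent.P167.H945.Q
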